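import Vale.Agent.P022D.Rl.Defs

/-!
# P022G: the ring of all local coordinates with further equations, inside one prime
-/

open MvPowerSeries

noncomputable section

namespace Vale.Agent.P022G.Rel

open Vale.Agent.P022D Vale.Agent.P022D.Rl

section

variable {O σ β Γ κ : Type} {τ ι : β → Type} [CommRing O]

/-- `η` lies on the component of type `J` -/
def On (D : Dat O σ β Γ τ ι) (J : Γ → Prop) (η : Ideal (MvPowerSeries σ O)) : Prop :=
  (∀ γ, J γ → (D.T γ).trace ∈ η ∧ (D.Φ γ).trace ∈ η ∧ (D.T γ * D.Φ γ).trace ∈ η) ∧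
    ∀ γ, ¬ J γ → ∀ i j, (D.T γ - 1) i j ∈ η

/-- the Jacobian minor of the further equations `k` on the columns `j` -/
def mn [Fintype κ] [DecidableEq κ] (k : κ → MvPowerSeries σ O) (j : κ → σ) : MvPowerSeries σ O :=
  (Matrix.of fun a b => pderiv O (j b) (k a)).det

/-- the local equations and the further equations -/
def IK (D : Dat O σ β Γ τ ι) (k : κ → MvPowerSeries σ O) : Ideal (MvPowerSeries σ O) :=
  D.I ⊔ Ideal.span (Set.range k)

/-- the special fibre inside the prime `p` -/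
structure Loc [Fintype σ] [Fintype β] [Fintype Γ] [Fintype κ] [∀ b, Fintype (ι b)]
    (D : Dat O σ β Γ τ ι) (π : O) (k : κ → MvPowerSeries σ O) (p : Ideal (MvPowerSeries σ O))
    (top : ℕ) : Prop where
  card : top + Fintype.card (Σ b, ι b) + 4 * Fintype.card Γ + Fintype.card κ = Fintype.card σ
  typ : ∀ η : Ideal (MvPowerSeries σ O), η.IsPrime → IK D k ⊔ Ideal.span {C π} ≤ η →
    On D (D.Ram η) η
  ex : ∀ J : Γ → Prop, On D J p → ∃ η : Ideal (MvPowerSeries σ O), η.IsPrime ∧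
    IK D k ⊔ Ideal.span {C π} ≤ η ∧ η ≤ p ∧ On D J η ∧
    (top : WithBot ℕ∞) ≤ ringKrullDim (MvPowerSeries σ O ⧸ η)
  dim : ∀ η : Ideal (MvPowerSeries σ O), η.IsPrime → IK D k ⊔ Ideal.span {C π} ≤ η → η ≤ p →
    ringKrullDim (MvPowerSeries σ O ⧸ η) ≤ top
  dom : ∀ (J : Γ → Prop) (η E : Ideal (MvPowerSeries σ O)), η.IsPrime → E.IsPrime →
    IK D k ⊔ Ideal.span {C π} ≤ η → IK D k ⊔ Ideal.span {C π} ≤ E → η ≤ p → E ≤ p →
    On D J η → On D J E → (top : WithBot ℕ∞) ≤ ringKrullDim (MvPowerSeries σ O ⧸ η) → η ≤ E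
  len : ∀ (η : Ideal (MvPowerSeries σ O)) [η.IsPrime], IK D k ⊔ Ideal.span {C π} ≤ η → η ≤ p →
    (top : WithBot ℕ∞) ≤ ringKrullDim (MvPowerSeries σ O ⧸ η) →
    PA.ln η (MvPowerSeries σ O ⧸ (IK D k ⊔ Ideal.span {C π})) ≤ (∏ γ, D.m η γ : ℕ)
  tr : ∀ η : Ideal (MvPowerSeries σ O), η.IsPrime → IK D k ⊔ Ideal.span {C π} ≤ η → η ≤ p →
    (top : WithBot ℕ∞) ≤ ringKrullDim (MvPowerSeries σ O ⧸ η) →
    ∀ γ, ¬ D.Ram η γ → (D.Φ γ).trace ∉ η

end

/-- the special fibre inside a prime where the further equations have an invertible minor on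
columns outside the blocks -/
def LOCR : Prop := ∀ (O F σ β Γ κ : Type) (τ ι : β → Type) [CommRing O] [Field F] [CharP F 2]
  [Fintype σ] [Fintype β] [Fintype Γ] [Fintype κ] [DecidableEq κ] [∀ b, Fintype (τ b)]
  [∀ b, Fintype (ι b)] (D : Dat O σ β Γ τ ι) (ψ : O →+* F) (π : O), D.Ok ψ π →
  (∀ a : F, ∃ b, b ^ 2 = a) → ∀ (k : κ → MvPowerSeries σ O) (j : κ → σ),
  (∀ a, j a ∉ Set.range D.e) → ∀ p : Ideal (MvPowerSeries σ O), p.IsPrime →
  IK D k ⊔ Ideal.span {C π} ≤ p → mn k j ∉ p → ∃ top : ℕ, Loc D π k p top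

/-- a point in characteristic zero inside `p` lies on a component whose special fibre inside `p`
is large -/
def CH0R : Prop := ∀ (O F σ β Γ κ : Type) (τ ι : β → Type) [CommRing O] [IsDomain O]
  [IsDiscreteValuationRing O] [Field F] [Fintype σ] [Fintype β] [Fintype Γ] [Fintype κ]
  [∀ b, Fintype (τ b)] [∀ b, Fintype (ι b)]
  (D : Dat O σ β Γ τ ι) (ψ : O →+* F) (π : O), D.Ok ψ π →
  (∀ γ, D.ξ γ ^ (D.l γ - 1) = 1) → ∀ (k : κ → MvPowerSeries σ O) (top : ℕ),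
  top + Fintype.card (Σ b, ι b) + 4 * Fintype.card Γ + Fintype.card κ = Fintype.card σ →
  ∀ (O' : Type) [CommRing O'] [IsDomain O'] [CharZero O'] (x : MvPowerSeries σ O →+* O'),
    IK D k ≤ RingHom.ker x → ∀ p : Ideal (MvPowerSeries σ O), p.IsPrime → RingHom.ker x ≤ p →
    C π ∈ p → ∃ 𝔮 η : Ideal (MvPowerSeries σ O), 𝔮.IsPrime ∧ η.IsPrime ∧ IK D k ≤ 𝔮 ∧
      𝔮 ≤ RingHom.ker x ∧ 𝔮 ⊔ Ideal.span {C π} ≤ η ∧ η ≤ p ∧
      (top : WithBot ℕ∞) ≤ ringKrullDim (MvPowerSeries σ O ⧸ η)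

end Vale.Agent.P022G.Rel
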