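import Vale.Agent.P022G.Rel.Frob

/-!
# P022G: the special fibre inside a prime
-/

open IsLocalRing MvPowerSeries

noncomputable section

namespace Vale.Agent.P022G.Rel

open Vale.Agent.P022D Vale.Agent.P022D.Rl

section mat

variable {B : Type} [CommRing B]

theorem eqN_of_tr (h2 : (2 : B) = 0) {Φ T : Matrix (Fin 2) (Fin 2) B} {d : Ideal B}
    (hd : T.det - 1 ∈ d) (h1 : T.trace ∈ d) (h3 : Φ.trace ∈ d) (h4 : (T * Φ).trace ∈ d)
    (i : Fin 4) : eqN Φ T i ∈ d := by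
  rw [Matrix.trace_fin_two] at h1 h3 h4
  simp only [Matrix.mul_apply, Fin.sum_univ_two] at h4
  rw [Matrix.det_fin_two] at hd
  fin_cases i
  · exact h1
  · exact h3
  · change (T 0 0 - 1) ^ 2 + T 0 1 * T 1 0 ∈ d
    convert d.add_mem hd (d.mul_mem_left (T 0 0) h1) using 1
    linear_combination (1 - T 0 0 + T 0 1 * T 1 0 - T 0 0 * T 1 1) * h2
  · change Φ 0 1 * T 1 0 + Φ 1 0 * T 0 1 ∈ d
    convert d.sub_mem (d.sub_mem h4 (d.mul_mem_left (T 0 0) h3)) (d.mul_mem_left (Φ 1 1) h1)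
      using 1
    linear_combination (T 0 0 * Φ 1 1) * h2

theorem tr_of_eqN (h2 : (2 : B) = 0) {Φ T : Matrix (Fin 2) (Fin 2) B} {d : Ideal B}
    (h : ∀ i, eqN Φ T i ∈ d) :
    T.det - 1 ∈ d ∧ T.trace ∈ d ∧ Φ.trace ∈ d ∧ (T * Φ).trace ∈ d := by
  have a0 : T 0 0 + T 1 1 ∈ d := h 0
  have a1 : Φ 0 0 + Φ 1 1 ∈ d := h 1
  have a2 : (T 0 0 - 1) ^ 2 + T 0 1 * T 1 0 ∈ d := h 2
  have a3 : Φ 0 1 * T 1 0 + Φ 1 0 * T 0 1 ∈ d := h 3
  refine ⟨?_, by rwa [Matrix.trace_fin_two], by rwa [Matrix.trace_fin_two], ?_⟩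
  · rw [Matrix.det_fin_two]
    convert d.add_mem a2 (d.mul_mem_left (T 0 0) a0) using 1
    linear_combination (-1 + T 0 0 - T 0 1 * T 1 0 - T 0 0 ^ 2) * h2
  · rw [Matrix.trace_fin_two]
    simp only [Matrix.mul_apply, Fin.sum_univ_two]
    convert d.add_mem (d.add_mem a3 (d.mul_mem_left (T 0 0) a1)) (d.mul_mem_left (Φ 1 1) a0)
      using 1
    linear_combination (-T 0 0 * Φ 1 1) * h2

theorem tame_of_quot {l : ℕ} {Φ T : Matrix (Fin 2) (Fin 2) B} {d : Ideal B}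
    (h : Φ.map (Ideal.Quotient.mk d) * T.map (Ideal.Quotient.mk d) =
      T.map (Ideal.Quotient.mk d) ^ l * Φ.map (Ideal.Quotient.mk d)) : Tame l Φ T d := by
  intro i j
  rw [← Ideal.Quotient.eq_zero_iff_mem]
  have e : (Φ * T - T ^ l * Φ).map (Ideal.Quotient.mk d) = 0 := by
    simp only [← RingHom.mapMatrix_apply, map_sub, map_mul, map_pow] at h ⊢
    rw [h, sub_self]
  exact congrFun (congrFun e i) j

theorem tame_of_eqN (h2 : (2 : B) = 0) {Φ T : Matrix (Fin 2) (Fin 2) B} {d : Ideal B}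
    (h : ∀ i, eqN Φ T i ∈ d) (m : ℕ) : Tame (2 * m + 1) Φ T d := by
  refine tame_of_quot ?_
  have h0 : ∀ i, eqN (Φ.map (Ideal.Quotient.mk d)) (T.map (Ideal.Quotient.mk d)) i = 0 :=
    fun i => by rw [eqN_map]; exact Ideal.Quotient.eq_zero_iff_mem.2 (h i)
  have t2 := two_quot h2 d
  generalize Φ.map (Ideal.Quotient.mk d) = P at h0 ⊢
  generalize T.map (Ideal.Quotient.mk d) = U at h0 ⊢
  have a0 : U 0 0 + U 1 1 = 0 := h0 0
  have a1 : P 0 0 + P 1 1 = 0 := h0 1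
  have a2 : (U 0 0 - 1) ^ 2 + U 0 1 * U 1 0 = 0 := h0 2
  have a3 : P 0 1 * U 1 0 + P 1 0 * U 0 1 = 0 := h0 3
  have hs : U ^ 2 = 1 := by
    rw [pow_two]
    ext i j
    fin_cases i <;> fin_cases j <;>
      simp only [Matrix.mul_apply, Fin.sum_univ_two, Fin.zero_eta, Fin.mk_one, Fin.isValue,
        Matrix.one_apply_eq, ne_eq, zero_ne_one, one_ne_zero, not_false_eq_true,
        Matrix.one_apply_ne]
    · linear_combination a2 + (U 0 0 - 1) * t2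
    · linear_combination U 0 1 * a0
    · linear_combination U 1 0 * a0
    · linear_combination a2 + (U 1 1 - U 0 0) * a0 + (U 0 0 - 1) * t2
  rw [pow_succ, pow_mul, hs, one_pow, one_mul]
  ext i j
  fin_cases i <;> fin_cases j <;>
    simp only [Matrix.mul_apply, Fin.sum_univ_two, Fin.zero_eta, Fin.mk_one, Fin.isValue]
  · linear_combination a3 - (P 1 0 * U 0 1) * t2
  · linear_combination U 0 1 * a1 + P 0 1 * a0 - (U 0 1 * P 1 1 + P 0 1 * U 0 0) * t2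
  · linear_combination U 1 0 * a1 + P 1 0 * a0 - (U 1 0 * P 0 0 + P 1 0 * U 1 1) * t2
  · linear_combination a3 - (P 0 1 * U 1 0) * t2

theorem of_unr {Φ T : Matrix (Fin 2) (Fin 2) B} {d : Ideal B} (h : ∀ i j, (T - 1) i j ∈ d)
    (l : ℕ) : Tame l Φ T d ∧ T.det - 1 ∈ d ∧ ∀ i, eqU T i ∈ d := by
  have e : T.map (Ideal.Quotient.mk d) = 1 := by
    have e1 : (T - 1).map (Ideal.Quotient.mk d) = 0 := by
      ext i j
      exact Ideal.Quotient.eq_zero_iff_mem.2 (h i j)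
    simp only [← RingHom.mapMatrix_apply, map_sub, map_one] at e1 ⊢
    exact sub_eq_zero.1 e1
  refine ⟨tame_of_quot (by rw [e, one_pow, one_mul, mul_one]), ?_, fun i => ?_⟩
  · rw [← Ideal.Quotient.eq_zero_iff_mem, map_sub, RingHom.map_det, RingHom.mapMatrix_apply, e,
      Matrix.det_one, map_one, sub_self]
  · fin_cases i
    · simpa [eqU] using h 0 0
    · simpa [eqU] using h 0 1
    · simpa [eqU] using h 1 0
    · simpa [eqU] using h 1 1

theorem unr_of_eqU {T : Matrix (Fin 2) (Fin 2) B} {d : Ideal B} (h : ∀ i, eqU T i ∈ d)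
    (i j : Fin 2) : (T - 1) i j ∈ d := by
  fin_cases i <;> fin_cases j
  · simpa [eqU] using h 0
  · simpa [eqU] using h 1
  · simpa [eqU] using h 2
  · simpa [eqU] using h 3

end mat

section fld

variable {F σ β Γ κ : Type} {τ ι : β → Type} [Field F] (D : Dat F σ β Γ τ ι) [CharP F 2]

/-- all the equations of the special fibre lie in `I` -/
def Eq0 (k : κ → MvPowerSeries σ F) (I : Ideal (MvPowerSeries σ F)) : Prop :=
  (∀ b i, CA.eqs D.eg D.f ⟨b, i⟩ ∈ I) ∧ (∀ γ, Tame (D.l γ) (D.Φ γ) (D.T γ) I) ∧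
    (∀ γ, (D.T γ).det - 1 ∈ I) ∧ ∀ a, k a ∈ I

omit [CharP F 2] in
theorem Eq0.mono {k : κ → MvPowerSeries σ F} {I I' : Ideal (MvPowerSeries σ F)} (h : Eq0 D k I)
    (hle : I ≤ I') : Eq0 D k I' :=
  ⟨fun b i => hle (h.1 b i), fun γ => (h.2.1 γ).mono hle, fun γ => hle (h.2.2.1 γ),
    fun a => hle (h.2.2.2 a)⟩

theorem g1_of_on {k : κ → MvPowerSeries σ F} {η : Ideal (MvPowerSeries σ F)} (h : Eq0 D k η)
    {J : Γ → Prop} (ho : On D J η) (x) : CA.eqs D.ee (D.ff (D.g1 J)) x ∈ η := by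
  refine D.span_le (D.g1 J) h.1 (fun γ i => ?_) (Ideal.subset_span ⟨x, rfl⟩)
  unfold Dat.g1
  split_ifs with hγ
  · rw [Dat.rn_N]
    exact eqN_of_tr two_ps (h.2.2.1 γ) (ho.1 γ hγ).1 (ho.1 γ hγ).2.1 (ho.1 γ hγ).2.2 i
  · rw [Dat.rn_U]
    exact (of_unr (Φ := 1) (ho.2 γ hγ) 0).2.2 i

theorem on_of_g1 (ho : ∀ γ, ∃ u, D.l γ = 2 ^ (D.a γ + 1) * (2 * u + 1) + 1)
    {k : κ → MvPowerSeries σ F} {η : Ideal (MvPowerSeries σ F)} {J : Γ → Prop}
    (h : ∀ x, CA.eqs D.ee (D.ff (D.g1 J)) x ∈ η) (hk : ∀ a, k a ∈ η) :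
    Eq0 D k η ∧ On D J η := by
  have hN : ∀ γ, J γ → ∀ i, eqN (D.Φ γ) (D.T γ) i ∈ η := fun γ hγ i => by
    have := h ⟨.inr γ, i⟩
    rwa [Dat.eqs_inr, Dat.g1, if_pos hγ, Dat.rn_N] at this
  have hU : ∀ γ, ¬ J γ → ∀ i j, (D.T γ - 1) i j ∈ η := fun γ hγ => unr_of_eqU fun i => by
    have := h ⟨.inr γ, i⟩
    rwa [Dat.eqs_inr, Dat.g1, if_neg hγ, Dat.rn_U] at this
  refine ⟨⟨fun b i => h ⟨.inl b, i⟩, fun γ => ?_, fun γ => ?_, hk⟩,
    fun γ hγ => (tr_of_eqN two_ps (hN γ hγ)).2, hU⟩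
  · by_cases hγ : J γ
    · obtain ⟨u, hu⟩ := ho γ
      rw [hu, pow_succ', mul_assoc]
      exact tame_of_eqN two_ps (hN γ hγ) _
    · exact (of_unr (hU γ hγ) _).1
  · by_cases hγ : J γ
    · exact (tr_of_eqN two_ps (hN γ hγ)).1
    · exact (of_unr (Φ := 1) (hU γ hγ) 0).2.1

theorem typ0 (hs : ∀ γ, D.s γ ≠ 0) (ho : ∀ γ, ∃ u, D.l γ = 2 ^ (D.a γ + 1) * (2 * u + 1) + 1)
    (ho' : ∀ γ, ∃ v, D.l γ + 1 = 2 ^ (D.a' γ + 1) * (2 * v + 1)) {k : κ → MvPowerSeries σ F}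
    {η : Ideal (MvPowerSeries σ F)} [hη : η.IsPrime] (h : Eq0 D k η) :
    (∀ γ, D.Ram η γ → D.T γ 0 1 ∉ η ∨ D.T γ 1 0 ∉ η) ∧ On D (D.Ram η) η := by
  have two : (2 : MvPowerSeries σ F) = 0 := two_ps
  choose u hu using ho
  choose v hv using ho'
  have ht : ∀ γ, (D.T γ).trace ∈ η := fun γ => hη.mem_of_pow_mem _
    (tr_mem two (D.unit_det γ (hs γ)) (D.tr_max γ) (hu γ) (hv γ) (h.2.1 γ) (h.2.2.1 γ))
  have hoff : ∀ γ, D.Ram η γ → D.T γ 0 1 ∉ η ∨ D.T γ 1 0 ∉ η := fun γ hγ =>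
    D.off_diag hγ (h.2.2.1 γ) (ht γ)
  refine ⟨hoff, fun γ hγ => (tr_of_eqN two fun i => ?_).2, fun γ hγ i j => ?_⟩
  · refine eqN_mem two (hu γ) (h.2.1 γ) (h.2.2.1 γ) (ht γ) (fun x x1 x2 => ?_) i
    rcases hoff γ hγ with h4 | h4
    · exact (hη.mem_or_mem x1).resolve_left h4
    · exact (hη.mem_or_mem x2).resolve_left h4
  · by_contra h4
    exact hγ ⟨i, j, h4⟩

variable [Fintype σ] [Fintype β] [Fintype Γ] [Fintype κ] [DecidableEq κ] [∀ b, Fintype (τ b)]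
  [∀ b, Fintype (ι b)]

theorem coreR (hF : ∀ a : F, ∃ b, b ^ 2 = a) (hb : ∀ b, CA.BlkPt (D.f b))
    (hs : ∀ γ, D.s γ ≠ 0) (ho : ∀ γ, ∃ u, D.l γ = 2 ^ (D.a γ + 1) * (2 * u + 1) + 1)
    (ho' : ∀ γ, ∃ v, D.l γ + 1 = 2 ^ (D.a' γ + 1) * (2 * v + 1))
    (k : κ → MvPowerSeries σ F) (j : κ → σ) (hj : ∀ a, j a ∉ Set.range D.e)
    (I : Ideal (MvPowerSeries σ F)) (hE : Eq0 D k I) {top : ℕ}
    (htop : top + Fintype.card (Σ b, ι b) + 4 * Fintype.card Γ + Fintype.card κ = Fintype.card σ)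
    (η : Ideal (MvPowerSeries σ F)) [hη : η.IsPrime] (hI : I ≤ η) (hd : mn k j ∉ η) :
    ringKrullDim (MvPowerSeries σ F ⧸ η) ≤ top ∧
      ((top : WithBot ℕ∞) ≤ ringKrullDim (MvPowerSeries σ F ⧸ η) →
        (∀ γ, ¬ D.Ram η γ → (D.Φ γ).trace ∉ η) ∧
        Module.length (Localization.AtPrime η) (Localization.AtPrime η ⧸
          I.map (algebraMap _ (Localization.AtPrime η))) ≤ (∏ γ, D.m η γ : ℕ)) := by
  classical
  have two : (2 : MvPowerSeries σ F) = 0 := two_ps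
  have hEη := hE.mono D hI
  obtain ⟨hoff, hon⟩ := typ0 D hs ho ho' hEη
  choose u hu using ho
  choose v hv using ho'
  obtain ⟨h1, h2, h3, hkI⟩ := hE
  have htn : ∀ γ, (D.T γ).trace ^ (2 ^ D.a γ + 2 ^ D.a' γ) ∈ I := fun γ =>
    tr_mem two (D.unit_det γ (hs γ)) (D.tr_max γ) (hu γ) (hv γ) (h2 γ) (h3 γ)
  have he := g1_of_on D hEη hon
  have hk := hEη.2.2.2
  obtain ⟨d, hd1, Z, hZ⟩ := frobR D hF hb (D.Ram η) k j hj η he hk hd
  obtain rfl : d = top := by omega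
  refine ⟨(hZ η hη le_rfl he hk).2.1, fun hge => ?_⟩
  obtain ⟨g, hg, hgen⟩ : ∃ g, g ∉ η ∧ ∀ y ∈ η, g * y ∈
      Ideal.span (Set.range (Sum.elim (CA.eqs D.ee (D.ff (D.g1 (D.Ram η)))) k)) := by
    rcases pt_rel D.ee (D.ff (D.g1 (D.Ram η))) k j (fun a => ee_out D (hj a)) η he hk hd (by
        rintro (b | γ)
        · exact Or.inl (hb b)
        · by_cases h : D.Ram η γ
          · right
            have h5 : D.g1 (D.Ram η) γ =
              eqN (mP id (D.s γ) (D.b γ)) (mT id (D.n γ)) := if_pos h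
            have h6 := row F (D.s γ) (D.b γ) (D.n γ) _ ((Pdeg.gen η).comp (D.rn γ)) (by
              refine (hoff γ h).imp (fun h7 h8 => h7 ((Pdeg.gen_ker η _).2 ?_))
                fun h7 h8 => h7 ((Pdeg.gen_ker η _).2 ?_)
              · rwa [RingHom.comp_apply, map_add, Dat.rn_C, Dat.rn_X] at h8
              · rwa [RingHom.comp_apply, Dat.rn_X] at h8)
            rw [← h5] at h6
            exact h6
          · left
            have h5 : D.g1 (D.Ram η) γ = eqU (mT id (D.n γ)) := if_neg h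
            have h6 := (blk F (D.b γ) (D.n γ)).1
            rw [← h5] at h6
            exact h6) with h4 | ⟨-, Q, hQ, hQ1, hQ2, g, hg, hgen⟩
    · exfalso
      rw [Fintype.card_sum, card_tt, Nat.card_eq_fintype_card] at h4
      have := CA.nat_le_of_dim hge h4
      omega
    · have h5 := (hZ Q hQ hQ2 (fun x => hQ1 (Ideal.subset_span ⟨.inl x, rfl⟩))
        fun a => hQ1 (Ideal.subset_span ⟨.inr a, rfl⟩)).2.1
      rw [eq_of_dim hQ hQ2 h5 hge] at hgen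
      exact ⟨g, hg, hgen⟩
  have htr : ∀ γ, ¬ D.Ram η γ → (D.Φ γ).trace ∉ η := by
    intro γ hγ h4
    have hjx : ∀ b i, D.x γ i ≠ j b := fun b i h => hj b ⟨_, h⟩
    have h5 : D.x γ 3 ≠ D.x γ 0 := fun h => absurd (D.x_inj h).2 (by decide)
    refine ne_zero_of_tan (Pdeg.gen η) _ k j (fun h => hd ((Pdeg.gen_ker η _).2 h))
      (fun a => (Pdeg.gen_ker η _).1 (hk a)) (D.x γ 0) (fun y => ?_) ?_ (fun b => ?_)
      (fun h => hg ((Pdeg.gen_ker η _).2 h)) (hgen _ h4) ((Pdeg.gen_ker η _).1 h4)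
    · refine ⟨(Pdeg.gen_ker η _).1 (he y), ?_, fun b => ?_⟩
      · obtain ⟨b | γ', i⟩ := y
        · rw [CA.eqs, CA.pderiv_rename_out, map_zero]
          rintro ⟨t, ht⟩
          exact Sum.inl_ne_inr (D.e.injective ht)
        · change Pdeg.gen η (pderiv F (D.x γ 0) (rename (D.xe γ') (D.g1 (D.Ram η) γ' i))) = 0
          by_cases hγ' : γ' = γ
          · subst hγ'
            have h6 : ∀ i : Fin 4, pderiv F (0 : Fin 8) (D.g1 (D.Ram η) γ' i) = 0 := by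
              intro i
              rw [Dat.g1, if_neg hγ]
              fin_cases i <;> simp [eqU, mT, pderiv_X_of_ne]
            have h8 := CA.pderiv_rename (D.xe γ') (0 : Fin 8) (D.g1 (D.Ram η) γ' i)
            have h7 : D.xe γ' 0 = D.x γ' 0 := rfl
            rw [← h7, h8, h6 i, map_zero, map_zero]
          · rw [CA.pderiv_rename_out, map_zero]
            rintro ⟨t, ht⟩
            exact hγ' (D.x_inj (i := t) ht).1
      · rw [CA.eqs, CA.pderiv_rename_out, map_zero]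
        rintro ⟨t, ht⟩
        exact ee_out D (hj b) ⟨⟨y.1, t⟩, ht⟩
    · simp [Dat.Φ, mP, pderiv_X_of_ne h5]
    · simp [Dat.Φ, mP, pderiv_X_of_ne (hjx b _)]
  refine ⟨htr, ?_⟩
  let B := Localization.AtPrime η
  let φ : MvPowerSeries σ F →+* B := algebraMap _ B
  have hun : ∀ x, x ∉ η → IsUnit (φ x) := fun x hx =>
    IsLocalization.map_units B (⟨x, hx⟩ : η.primeCompl)
  have hmx : ∀ x, x ∈ η → φ x ∈ maximalIdeal B := fun x hx =>
    (IsLocalization.AtPrime.to_map_mem_maximal_iff B η x).2 hx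
  have twoB : (2 : B) = 0 := by rw [← map_ofNat φ 2, two, map_zero]
  let E : Γ → Ideal B := fun γ => Ideal.span (Set.range fun i => φ (D.rn γ (D.g1 (D.Ram η) γ i)))
  have hlen := len_prod Finset.univ (D.m η) E (I.map φ) (fun γ _ c hc => by
    have t1 := ((h2 γ).map φ).mono hc
    have t2 : ((D.T γ).map φ).det - 1 ∈ c := by
      rw [← RingHom.mapMatrix_apply, ← RingHom.map_det, ← map_one φ, ← map_sub]
      exact hc (Ideal.mem_map_of_mem φ (h3 γ))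
    have t3 : ∀ M : Matrix (Fin 2) (Fin 2) (MvPowerSeries σ F), (M.map φ).trace = φ M.trace :=
      fun M => by simp [Matrix.trace_fin_two]
    by_cases h : D.Ram η γ
    · have e1 : E γ = Ideal.span (Set.range (eqN ((D.Φ γ).map φ) ((D.T γ).map φ))) := by
        simp only [E, Dat.g1, if_pos h, Dat.rn_N]
        simp only [← eqN_map]
      rw [e1, Dat.m, if_pos h]
      refine lenN twoB (hu γ) t1 t2 ?_ ((hoff γ h).imp (hun _) (hun _))
      rw [t3, ← map_pow]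
      exact hc (Ideal.mem_map_of_mem φ (htn γ))
    · have e1 : E γ = Ideal.span (Set.range (eqU ((D.T γ).map φ))) := by
        simp only [E, Dat.g1, if_neg h, Dat.rn_U]
        simp only [← eqU_map]
      rw [e1, Dat.m, if_neg h]
      refine lenU twoB (by rw [t3]; exact hun _ (htr γ h)) (fun i j => ?_) (hu γ) t1 t2
      have e2 : (D.T γ).map φ - 1 = (D.T γ - 1).map φ := by
        simp only [← RingHom.mapMatrix_apply, map_sub, map_one]
      rw [e2]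
      refine hmx _ ?_
      by_contra h4
      exact h ⟨i, j, h4⟩)
  refine hlen.trans ?_
  have h5 : maximalIdeal B ≤ I.map φ ⊔ Finset.univ.sup E := by
    rw [← Localization.AtPrime.map_eq_maximalIdeal, Ideal.map_le_iff_le_comap]
    intro y hy
    have h6 : Ideal.span (Set.range (CA.eqs D.ee (D.ff (D.g1 (D.Ram η))))) ≤
        (I.map φ ⊔ Finset.univ.sup E).comap φ :=
      D.span_le _ (fun b i => Ideal.mem_sup_left (Ideal.mem_map_of_mem φ (h1 b i))) fun γ i =>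
        Ideal.mem_sup_right (Finset.le_sup (f := E) (Finset.mem_univ γ)
          (Ideal.subset_span ⟨i, rfl⟩))
    have h8 : Ideal.span (Set.range (Sum.elim (CA.eqs D.ee (D.ff (D.g1 (D.Ram η)))) k)) ≤
        (I.map φ ⊔ Finset.univ.sup E).comap φ := by
      rw [Ideal.span_le]
      rintro _ ⟨x | a, rfl⟩
      · exact h6 (Ideal.subset_span ⟨x, rfl⟩)
      · exact Ideal.mem_sup_left (Ideal.mem_map_of_mem φ (hkI a))
    have h7 := h8 (hgen y hy)
    rw [Ideal.mem_comap, map_mul] at h7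
    exact (Ideal.unit_mul_mem_iff_mem _ (hun g hg)).1 h7
  have h6 := len_max h5
  calc _ ≤ ((∏ γ, D.m η γ : ℕ) : ℕ∞) * 1 := by gcongr
    _ = _ := mul_one _

end fld

section red

variable {O F σ β Γ κ : Type} {τ ι : β → Type} [CommRing O] [Field F] (D : Dat O σ β Γ τ ι)
  (ψ : O →+* F)

theorem on_red (J : Γ → Prop) (η : Ideal (MvPowerSeries σ F)) :
    On (D.red ψ) J η ↔ On D J (η.comap (MvPowerSeries.map ψ)) := by
  have t3 : ∀ M : Matrix (Fin 2) (Fin 2) (MvPowerSeries σ O),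
      (M.map (MvPowerSeries.map ψ)).trace = MvPowerSeries.map ψ M.trace :=
    fun M => by simp [Matrix.trace_fin_two]
  have e : ∀ γ, (D.red ψ).T γ - 1 = (D.T γ - 1).map (MvPowerSeries.map ψ) := fun γ => by
    rw [Dat.red_T]
    simp only [← RingHom.mapMatrix_apply, map_sub, map_one]
  unfold On
  simp only [e]
  simp only [Dat.red_T, Dat.red_Φ, ← Matrix.map_mul, t3]
  rfl

theorem mn_red [Fintype κ] [DecidableEq κ] (k : κ → MvPowerSeries σ O) (j : κ → σ) :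
    mn (fun a => MvPowerSeries.map ψ (k a)) j = MvPowerSeries.map ψ (mn k j) := by
  rw [mn, mn, RingHom.map_det]
  congr 1
  ext a b n
  simp [coeff_pderiv, coeff_map]

theorem eq0_red [∀ b, Fintype (τ b)] [∀ b, Fintype (ι b)] {π : O} (hD : D.Ok ψ π)
    (k : κ → MvPowerSeries σ O) (η : Ideal (MvPowerSeries σ F)) :
    Eq0 (D.red ψ) (fun a => MvPowerSeries.map ψ (k a)) η ↔
      IK D k ⊔ Ideal.span {C π} ≤ η.comap (MvPowerSeries.map ψ) := by
  have e1 : ∀ b i, CA.eqs (D.red ψ).eg (D.red ψ).f ⟨b, i⟩ =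
      MvPowerSeries.map ψ (CA.eqs D.eg D.f ⟨b, i⟩) := fun b i => rename_map _ ψ _
  have e2 : ∀ γ, (D.red ψ).Φ γ * (D.red ψ).T γ - (D.red ψ).T γ ^ (D.red ψ).l γ * (D.red ψ).Φ γ =
      (D.Φ γ * D.T γ - D.T γ ^ D.l γ * D.Φ γ).map (MvPowerSeries.map ψ) := fun γ => by
    rw [Dat.red_Φ, Dat.red_T]
    simp only [← RingHom.mapMatrix_apply, map_sub, map_mul, map_pow]
    rfl
  have e3 : ∀ γ, ((D.red ψ).T γ).det - 1 = MvPowerSeries.map ψ ((D.T γ).det - C (D.ξ γ)) :=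
    fun γ => by
      rw [Dat.red_T, ← RingHom.mapMatrix_apply, ← RingHom.map_det, map_sub, map_C, hD.xi, map_one]
  have e4 : (C π : MvPowerSeries σ O) ∈ η.comap (MvPowerSeries.map ψ) := by
    have h1 : ψ π = 0 := by
      rw [← RingHom.mem_ker, hD.ker]
      exact Ideal.mem_span_singleton_self π
    rw [Ideal.mem_comap, map_C, h1, map_zero]
    exact η.zero_mem
  unfold Eq0 Tame IK Dat.I Dat.I0
  simp only [e1, e2, e3, sup_le_iff, Ideal.span_le, Set.range_subset_iff,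
    Set.singleton_subset_iff]
  exact ⟨fun h => ⟨⟨⟨⟨fun x => h.1 x.1 x.2, fun x => h.2.1 x.1 x.2.1 x.2.2⟩, h.2.2.1⟩, h.2.2.2⟩, e4⟩,
    fun h => ⟨fun b i => h.1.1.1.1 ⟨b, i⟩, fun γ i j => h.1.1.1.2 (γ, i, j), h.1.1.2, h.1.2⟩⟩

end red

theorem locR : LOCR := by
  intro O F σ β Γ κ τ ι _ _ _ _ _ _ _ _ _ _ D ψ π hD hF k j hj p hp hle hd
  have hμ := CA.map_surj (σ := σ) ψ hD.surj
  have hker := CA.ker_map (σ := σ) ψ hD.ker
  have lift : ∀ η : Ideal (MvPowerSeries σ O), η.IsPrime → IK D k ⊔ Ideal.span {C π} ≤ η →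
      ∃ η₀ : Ideal (MvPowerSeries σ F), η₀.IsPrime ∧ η = η₀.comap (MvPowerSeries.map ψ) := by
    intro η hη hle
    have hk : RingHom.ker (MvPowerSeries.map (σ := σ) ψ) ≤ η := hker ▸ le_sup_right.trans hle
    refine ⟨η.map (MvPowerSeries.map ψ), Ideal.map_isPrime_of_surjective hμ hk, ?_⟩
    rw [Ideal.comap_map_of_surjective _ hμ, ← RingHom.ker_eq_comap_bot, sup_eq_left.2 hk]
  have hcm : ∀ {a b : Ideal (MvPowerSeries σ F)}, a.comap (MvPowerSeries.map (σ := σ) ψ) ≤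
      b.comap (MvPowerSeries.map ψ) → a ≤ b := fun h => Ideal.comap_le_comap_iff_of_surjective _ hμ _ _ |>.1 h
  obtain ⟨p, hp₀, rfl⟩ := lift p hp hle
  let k₀ : κ → MvPowerSeries σ F := fun a => MvPowerSeries.map ψ (k a)
  have hd₀ : mn k₀ j ∉ p := fun h => hd (by rwa [mn_red] at h)
  have hEp := (eq0_red D ψ hD k p).2 hle
  have hdq : ∀ η : Ideal (MvPowerSeries σ F), ringKrullDim (MvPowerSeries σ O ⧸
      η.comap (MvPowerSeries.map ψ)) = ringKrullDim (MvPowerSeries σ F ⧸ η) := fun η =>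
    ringKrullDim_eq_of_ringEquiv (CA.comapEquiv _ hμ η)
  obtain ⟨top, htop, -⟩ := frobR (D.red ψ) hF hD.blk _ k₀ j hj p
    (g1_of_on _ hEp (typ0 (D.red ψ) hD.s_ne hD.odd hD.odd' hEp).2) hEp.2.2.2 hd₀
  have hEI : Eq0 (D.red ψ) k₀ ((IK D k ⊔ Ideal.span {C π}).map (MvPowerSeries.map ψ)) :=
    (eq0_red D ψ hD k _).2 Ideal.le_comap_map
  have hcore := coreR (D.red ψ) hF hD.blk hD.s_ne hD.odd hD.odd' k₀ j hj _ hEI htop
  refine ⟨top, htop, fun η hη h1 => ?_, fun J hJ => ?_, fun η hη h1 h2 => ?_,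
    fun J η E hη hE h1 h2 h3 h4 h5 h6 h7 => ?_, fun η hη h1 h2 h3 => ?_,
    fun η hη h1 h2 h3 γ hγ h4 => ?_⟩
  · obtain ⟨η, h₀, rfl⟩ := lift η hη h1
    rw [← Dat.red_Ram, ← on_red]
    exact (typ0 (D.red ψ) hD.s_ne hD.odd hD.odd' ((eq0_red D ψ hD k η).2 h1)).2
  · have hA := Vale.Agent.P177.mvPowerSeries_isRegularLocalRing σ F
    obtain ⟨Q, hQ, h1, h2, h3⟩ := ex_min (Vale.Agent.P177.mvPowerSeries_ringKrullDim σ F)
      (Sum.elim (CA.eqs (D.red ψ).ee ((D.red ψ).ff ((D.red ψ).g1 J))) k₀) hp₀ (by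
        rintro (x | a)
        · exact g1_of_on _ hEp ((on_red D ψ J p).2 hJ) x
        · exact hEp.2.2.2 a) (d := top) (by
        rw [Fintype.card_sum, card_tt, Nat.card_eq_fintype_card]
        omega)
    obtain ⟨h4, h5⟩ := on_of_g1 (D.red ψ) hD.odd (fun x => h1 (.inl x)) fun a => h1 (.inr a)
    exact ⟨Q.comap (MvPowerSeries.map ψ), inferInstance, (eq0_red D ψ hD k Q).1 h4,
      Ideal.comap_mono h2, (on_red D ψ J Q).1 h5, (hdq Q).symm ▸ h3⟩
  · obtain ⟨η, h₀, rfl⟩ := lift η hη h1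
    rw [hdq]
    exact (hcore η (Ideal.map_le_iff_le_comap.2 h1) fun h => hd₀ (hcm h2 h)).1
  · obtain ⟨η, h₀, rfl⟩ := lift η hη h1
    obtain ⟨E, h₁, rfl⟩ := lift E hE h2
    rw [hdq] at h7
    have a1 := (eq0_red D ψ hD k η).2 h1
    have a2 := (eq0_red D ψ hD k E).2 h2
    have b1 := g1_of_on _ a1 ((on_red D ψ J η).2 h5)
    have b2 := g1_of_on _ a2 ((on_red D ψ J E).2 h6)
    have hJp : On (D.red ψ) J p := by
      have := (on_red D ψ J η).2 h5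
      exact ⟨fun γ h => ⟨hcm h3 (this.1 γ h).1, hcm h3 (this.1 γ h).2.1, hcm h3 (this.1 γ h).2.2⟩,
        fun γ h i j => hcm h3 (this.2 γ h i j)⟩
    obtain ⟨d, hd1, Z, hZ⟩ := frobR (D.red ψ) hF hD.blk J k₀ j hj p (g1_of_on _ hEp hJp)
      hEp.2.2.2 hd₀
    obtain rfl : d = top := by omega
    refine Ideal.comap_mono ?_
    rw [(hZ η h₀ (hcm h3) b1 a1.2.2.2).2.2 h7]
    exact (hZ E h₁ (hcm h4) b2 a2.2.2.2).1
  · obtain ⟨η, h₀, rfl⟩ := lift η hη h1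
    rw [hdq] at h3
    rw [← Dat.red_m]
    exact (ln_le _ hμ η _ (hker ▸ le_sup_right)).trans
      ((hcore η (Ideal.map_le_iff_le_comap.2 h1) fun h => hd₀ (hcm h2 h)).2 h3).2
  · obtain ⟨η, h₀, rfl⟩ := lift η hη h1
    rw [hdq] at h3
    refine ((hcore η (Ideal.map_le_iff_le_comap.2 h1) fun h => hd₀ (hcm h2 h)).2 h3).1 γ
      (by rwa [Dat.red_Ram]) ?_
    have e : ((D.red ψ).Φ γ).trace = MvPowerSeries.map ψ (D.Φ γ).trace := by
      rw [Dat.red_Φ]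
      simp [Matrix.trace_fin_two]
    rw [e]
    exact h4

end Vale.Agent.P022G.Rel
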