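import Vale.Agent.P022D.CA.Pow
import Vale.Agent.P022D.CA.Jac

/-!
# P022G: the primality criterion inside a prime of a regular local ring
-/

open IsLocalRing RingTheory.Sequence

namespace Vale.Agent.P022G.Rel

open Vale.Agent.P022D Vale.Agent.P022D.CA Vale.Agent.P298.H25 Vale.Agent.P177

universe u

variable {A : Type u} [CommRing A] [IsRegularLocalRing A]

theorem depth_reg {n : ℕ} (hn : ringKrullDim A = n) : DepthGE A A n := by
  obtain ⟨zs, h1, h2, -, h3, -, -⟩ := exists_ci hn (maximalIdeal A)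
  have h4 : zs.length = n := by
    have h5 := IsLocalRing.maximalIdeal_height_eq_ringKrullDim (R := A)
    rw [h3, hn] at h5
    exact_mod_cast h5
  rw [← h4]
  exact DepthGE.of_isRegular h1 (IsRegular.of_isWeaklyRegular_of_mem_maximalIdeal A h1 h2)

theorem disj {A : Type u} [CommRing A] {P p : Ideal A} [p.IsPrime] (h : P ≤ p) :
    Disjoint (p.primeCompl : Set A) (P : Set A) :=
  Set.disjoint_left.2 fun _ hx hx' => hx (h hx')

theorem dim_loc {n : ℕ} (hn : ringKrullDim A = n) (p : Ideal A) [p.IsPrime] {t : ℕ}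
    (ht : p.height = t) (P' : Ideal (Localization.AtPrime p)) [P'.IsPrime] :
    ∃ h d d' : ℕ, ringKrullDim (A ⧸ P'.under A) = d ∧
      ringKrullDim (Localization.AtPrime p ⧸ P') = d' ∧ d + h = n ∧ d' + h = t := by
  have hS : IsRegularLocalRing (Localization.AtPrime p) := isRegularLocalRing_localization A p _
  have hd : ringKrullDim (Localization.AtPrime p) = t := by
    rw [IsLocalization.AtPrime.ringKrullDim_eq_height p, ht]
    rfl
  obtain ⟨h, d, e1, e2, e3⟩ := Jac.dim_add_height hn (P'.under A)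
  obtain ⟨h', d', e4, e5, e6⟩ := Jac.dim_add_height hd P'
  rw [IsLocalization.height_under p.primeCompl, e4] at e1
  have e7 : h' = h := by exact_mod_cast e1
  exact ⟨h, d, d', e2, e5, e3, e7 ▸ e6⟩

/-- Cutting a prime by one element inside a larger prime. -/
theorem cut {n : ℕ} (hn : ringKrullDim A = n) {Q p : Ideal A} (hQ : Q.IsPrime) (hp : p.IsPrime)
    (hQp : Q ≤ p) {x : A} (hx : x ∈ p) {d : ℕ}
    (hd : ((d + 1 : ℕ) : WithBot ℕ∞) ≤ ringKrullDim (A ⧸ Q)) :
    ∃ η : Ideal A, η.IsPrime ∧ Q ⊔ Ideal.span {x} ≤ η ∧ η ≤ p ∧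
      (d : WithBot ℕ∞) ≤ ringKrullDim (A ⧸ η) := by
  have h0 : Q ⊔ Ideal.span {x} ≤ p := sup_le hQp ((Ideal.span_singleton_le_iff_mem _).2 hx)
  obtain ⟨η, hη, hηp⟩ := Ideal.exists_minimalPrimes_le h0
  have hpr : η.IsPrime := hη.1.1
  have hle : Q ⊔ Ideal.span {x} ≤ η := hη.1.2
  refine ⟨η, hpr, hle, hηp, ?_⟩
  obtain ⟨t, e, e1, e2, e3⟩ := Jac.dim_add_height hn η
  let S := Localization.AtPrime η
  have hS : IsRegularLocalRing S := isRegularLocalRing_localization A η _
  have hQη : Q ≤ η := le_sup_left.trans hle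
  have hQ' : (Q.map (algebraMap A S)).IsPrime :=
    IsLocalization.isPrime_of_isPrime_disjoint η.primeCompl S Q hQ (disj hQη)
  obtain ⟨h, d1, d', f1, f2, f3, f4⟩ := dim_loc hn η e1 (Q.map (algebraMap A S))
  rw [IsLocalization.under_map_of_isPrime_disjoint η.primeCompl S hQ (disj hQη)] at f1
  have hxη : x ∈ η := hle (Ideal.mem_sup_right (Ideal.mem_span_singleton_self x))
  have h1 : d' ≤ 1 := by
    by_contra h2
    have h3 : ((1 + 1 : ℕ) : WithBot ℕ∞) ≤ ringKrullDim (S ⧸ Q.map (algebraMap A S)) := by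
      rw [f2]
      exact_mod_cast (by omega : 1 + 1 ≤ d')
    obtain ⟨P', hP', h4, h5⟩ := dimGE_prime (dimGE_sup
      ((IsLocalization.AtPrime.to_map_mem_maximal_iff S η x).2 hxη) h3)
    have h6 : P'.under A ≤ η := fun y hy =>
      (IsLocalization.AtPrime.to_map_mem_maximal_iff S η y).1 (le_maximalIdeal hP'.ne_top hy)
    have h7 : η ≤ P'.under A := hη.2 ⟨inferInstance, sup_le
      (Ideal.map_le_iff_le_comap.1 (le_sup_left.trans h4))
      ((Ideal.span_singleton_le_iff_mem _).2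
        (h4 (Ideal.mem_sup_right (Ideal.mem_span_singleton_self _))))⟩ h6
    obtain ⟨a, b, c, g1, g2, g3, g4⟩ := dim_loc hn η e1 P'
    rw [le_antisymm h6 h7, e2] at g1
    rw [g2] at h5
    have g5 : e = b := by exact_mod_cast g1
    have g6 : 1 ≤ c := by exact_mod_cast h5
    omega
  rw [f1] at hd
  have h2 : d + 1 ≤ d1 := by exact_mod_cast hd
  rw [e2]
  exact_mod_cast (by omega : d ≤ e)

/-- A minimal prime of `c` equations inside `p` has codimension at most `c`. -/
theorem ex_min {n : ℕ} (hn : ringKrullDim A = n) {ι : Type} [Fintype ι] (f : ι → A)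
    {p : Ideal A} (hp : p.IsPrime) (hf : ∀ i, f i ∈ p) {d : ℕ} (hd : d + Fintype.card ι ≤ n) :
    ∃ Q : Ideal A, Q.IsPrime ∧ (∀ i, f i ∈ Q) ∧ Q ≤ p ∧
      (d : WithBot ℕ∞) ≤ ringKrullDim (A ⧸ Q) := by
  have h0 : Ideal.span (Set.range f) ≤ p := Ideal.span_le.2 (Set.range_subset_iff.2 hf)
  obtain ⟨Q, hq, hqp⟩ := Ideal.exists_minimalPrimes_le h0
  have hQ : Q.IsPrime := hq.1.1
  refine ⟨Q, hQ, fun i => hq.1.2 (Ideal.subset_span ⟨i, rfl⟩), hqp, ?_⟩
  have hht : Q.height ≤ (Fintype.card ι : ℕ∞) := by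
    refine (Ideal.height_le_card_of_mem_minimalPrimes_span (Set.finite_range _) hq).trans ?_
    refine Nat.cast_le.2 ?_
    rw [← Set.image_univ]
    refine (Set.ncard_image_le Set.finite_univ).trans ?_
    rw [Set.ncard_univ, Nat.card_eq_fintype_card]
  obtain ⟨h, e, e1, e2, e3⟩ := Jac.dim_add_height hn Q
  rw [e1] at hht
  have hh : h ≤ Fintype.card ι := by exact_mod_cast hht
  rw [e2]
  exact_mod_cast (by omega : d ≤ e)

/-- DOM inside the prime `p`. -/
theorem dom_rel {n : ℕ} (hn : ringKrullDim A = n) {ι : Type} [Fintype ι] (f : ι → A)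
    (p : Ideal A) [p.IsPrime] (hp : ∀ i, f i ∈ p)
    (hyp : ∀ P : Ideal A, P.IsPrime → P ≤ p → (∀ i, f i ∈ P) →
      ringKrullDim (A ⧸ P) + (Fintype.card ι + 2 : ℕ) ≤ n ∨
      (ringKrullDim (A ⧸ P) + (Fintype.card ι : ℕ) ≤ n ∧
        ∃ Q : Ideal A, Q.IsPrime ∧ Ideal.span (Set.range f) ≤ Q ∧ Q ≤ P ∧
          ∃ g, g ∉ P ∧ ∀ q ∈ Q, g * q ∈ Ideal.span (Set.range f))) :
    ∃ d : ℕ, d + Fintype.card ι = n ∧ ∃ Q : Ideal A, Q.IsPrime ∧ (∀ i, f i ∈ Q) ∧ Q ≤ p ∧
      ringKrullDim (A ⧸ Q) = d ∧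
      ∀ P : Ideal A, P.IsPrime → P ≤ p → (∀ i, f i ∈ P) → Q ≤ P := by
  obtain ⟨t, e, e1, e2, e3⟩ := Jac.dim_add_height hn p
  let S := Localization.AtPrime p
  let φ := algebraMap A S
  have hS : IsRegularLocalRing S := isRegularLocalRing_localization A p _
  have hd : ringKrullDim S = t := by
    rw [IsLocalization.AtPrime.ringKrullDim_eq_height p, e1]
    rfl
  let q := (Fintype.equivFin ι).symm
  have hI : Ideal.ofList (List.ofFn fun i => φ (f (q i))) = (Ideal.span (Set.range f)).map φ := by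
    rw [ofList_ofFn, Ideal.map_span, ← Set.range_comp]
    congr 1
    exact q.surjective.range_comp (φ ∘ f)
  have hun : ∀ P' : Ideal S, P'.IsPrime → P'.under A ≤ p := fun P' hP' y hy =>
    (IsLocalization.AtPrime.to_map_mem_maximal_iff S p y).1 (le_maximalIdeal hP'.ne_top hy)
  obtain ⟨d', h1, h2, h3, -⟩ := dom_list (depth_reg hd) (List.ofFn fun i => φ (f (q i)))
    (fun r hr => by
      obtain ⟨i, rfl⟩ := (List.mem_ofFn' _ _).1 hr
      exact (IsLocalization.AtPrime.to_map_mem_maximal_iff S p _).2 (hp _)) (by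
    rw [hI, List.length_ofFn]
    intro P' hP' hle
    obtain ⟨a, b, c, g1, g2, g3, g4⟩ := dim_loc hn p e1 P'
    have hle' : Ideal.span (Set.range f) ≤ P'.under A := Ideal.map_le_iff_le_comap.1 hle
    rcases hyp (P'.under A) inferInstance (hun P' hP')
      (fun i => hle' (Ideal.subset_span ⟨i, rfl⟩)) with h | ⟨h, Q, hQ, k1, k2, g, hg, k3⟩
    · left
      rw [g1] at h
      have h4 : b + (Fintype.card ι + 2) ≤ n := by exact_mod_cast h
      rw [g2]
      exact_mod_cast (by omega : c + (Fintype.card ι + 2) ≤ t)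
    · right
      rw [g1] at h
      have h4 : b + Fintype.card ι ≤ n := by exact_mod_cast h
      refine ⟨by rw [g2]; exact_mod_cast (by omega : c + Fintype.card ι ≤ t), Q.map φ,
        IsLocalization.isPrime_of_isPrime_disjoint p.primeCompl S Q hQ
          (disj (k2.trans (hun P' hP'))), Ideal.map_mono k1, Ideal.map_le_iff_le_comap.2 k2,
        φ g, hg, fun y hy => ?_⟩
      have h5 : Ideal.span {g} * Q ≤ Ideal.span (Set.range f) := by
        rw [Ideal.span_singleton_mul_le_iff]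
        exact k3
      refine Ideal.map_mono (f := φ) h5 ?_
      rw [Ideal.map_mul]
      exact Ideal.mul_mem_mul (Ideal.mem_map_of_mem φ (Ideal.mem_span_singleton_self g)) hy)
  rw [hI] at h2 h3
  rw [List.length_ofFn] at h1
  obtain ⟨a, b, c, g1, g2, g3, g4⟩ := dim_loc hn p e1 ((Ideal.span (Set.range f)).map φ)
  rw [h3] at g2
  have g5 : d' = c := by exact_mod_cast g2
  refine ⟨b, by omega, ((Ideal.span (Set.range f)).map φ).under A, inferInstance,
    fun i => Ideal.mem_map_of_mem φ (Ideal.subset_span (Set.mem_range_self i)), hun _ h2, g1,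
    fun P hP hPp hf y hy => ?_⟩
  obtain ⟨s, hs, hsy⟩ :=
    (IsLocalization.algebraMap_mem_map_algebraMap_iff p.primeCompl S _ _).1 hy
  exact (hP.mem_or_mem (Ideal.span_le.2 (Set.range_subset_iff.2 hf) hsy)).resolve_left
    fun h => hs (hPp h)

end Vale.Agent.P022G.Rel
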