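import Vale.Agent.P022G.Rel.Defs
import Vale.Agent.P022G.Rel.Dom
import Vale.Agent.P022D.Rl.Ch0

/-!
# P022G: a point in characteristic zero inside a prime
-/

open MvPowerSeries IsLocalRing

noncomputable section

namespace Vale.Agent.P022G.Rel

open Vale.Agent.P022D Vale.Agent.P022D.Rl

theorem ch0R : CH0R := by
  intro O F σ β Γ κ τ ι _ _ _ _ _ _ _ _ _ _ D ψ π hD hξ k top htop O' _ _ _ x hx p hp hxp hπ
  have hmax : maximalIdeal O = Ideal.span {π} := by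
    rw [← hD.ker]
    exact (eq_maximalIdeal (RingHom.ker_isMaximal_of_surjective ψ hD.surj)).symm
  obtain ⟨hreg, hdim⟩ := Ch0.reg (σ := σ) hmax
  have hker : (RingHom.ker x).IsPrime := RingHom.ker_isPrime x
  have h0 : D.I0 ≤ RingHom.ker x := le_sup_left.trans (le_sup_left.trans hx)
  obtain ⟨𝔮, hq, hf, hqx, hk⟩ := ex_min hdim
    (Sum.elim (Sum.elim (CA.eqs D.eg D.f) fun p : Γ × Fin 2 × Fin 2 =>
      (D.Φ p.1 * D.T p.1 - D.T p.1 ^ D.l p.1 * D.Φ p.1) p.2.1 p.2.2) k) hker (by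
      rintro ((y | y) | y)
      · exact h0 (Ideal.mem_sup_left (Ideal.subset_span ⟨y, rfl⟩))
      · exact h0 (Ideal.mem_sup_right (Ideal.subset_span ⟨y, rfl⟩))
      · exact hx (Ideal.mem_sup_right (Ideal.subset_span ⟨y, rfl⟩))) (d := top + 1) (by
      simp only [Fintype.card_sum, Fintype.card_prod, Fintype.card_fin]
      omega)
  have hI0 : D.I0 ≤ 𝔮 := sup_le
    (Ideal.span_le.2 (Set.range_subset_iff.2 fun y => hf (.inl (.inl y))))
    (Ideal.span_le.2 (Set.range_subset_iff.2 fun y => hf (.inl (.inr y))))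
  obtain ⟨η, hη, hle, hηp, hdη⟩ := cut hdim hq hp (hqx.trans hxp) hπ hk
  refine ⟨𝔮, η, hq, hη, sup_le (sup_le hI0 ?_)
    (Ideal.span_le.2 (Set.range_subset_iff.2 fun y => hf (.inr y))), hqx, hle, hηp, hdη⟩
  rw [Ideal.span_le]
  rintro _ ⟨γ, rfl⟩
  obtain ⟨u, hu⟩ := hD.odd γ
  have hT : Tame (2 ^ (D.a γ + 1) * (2 * u + 1) + 1) (D.Φ γ) (D.T γ) 𝔮 := by
    rw [← hu]
    intro i j
    exact hI0 (Ideal.mem_sup_right (Ideal.subset_span ⟨(γ, i, j), rfl⟩))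
  have hs : IsUnit (D.s γ) := by
    by_contra hs
    have h1 : D.s γ ∈ maximalIdeal O := hs
    rw [hmax, ← hD.ker] at h1
    exact hD.s_ne γ h1
  refine Ch0.det_mem x 𝔮 hq hqx (by positivity) hT ?_ ?_ ?_
  · rw [isUnit_iff_constantCoeff]
    simp [Dat.Φ, mP, Matrix.det_fin_two, hs]
  · have h1 := hξ γ
    rw [hu, Nat.add_sub_cancel] at h1
    rw [← map_pow, h1, map_one]
  · exact hx (Ideal.mem_sup_left (Ideal.mem_sup_right (Ideal.subset_span ⟨γ, rfl⟩)))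

end Vale.Agent.P022G.Rel
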