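import Vale.Agent.P022G.Rel.Low
import Vale.Agent.P022G.Rel.Ch0
import Vale.Agent.P022G.Pt.Defs3
import Vale.Agent.P022D.Rl.AsLoc

/-!
# P022G: the local algebra in the form of the patching argument at a curve
-/

set_option linter.all false

open MvPowerSeries IsLocalRing

noncomputable section

namespace Vale.Agent.P022G.Rel

open Vale.Agent.P022D Vale.Agent.P022D.Rl
open Vale.Agent.P022D.Core (ty)

section defs

variable {O σ β Γ κ : Type} {τ ι : β → Type} [CommRing O]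

/-- the ideal of the type `J` -/
def IJ (D : Dat O σ β Γ τ ι) (J : Finset Γ) : Ideal (MvPowerSeries σ O) :=
  Ideal.span {u | (∃ γ ∈ J, u = (D.T γ).trace ∨ u = (D.Φ γ).trace ∨ u = (D.T γ * D.Φ γ).trace) ∨
    ∃ γ, γ ∉ J ∧ ∃ i j, u = (D.T γ - 1) i j}

theorem IJ_le (D : Dat O σ β Γ τ ι) (J : Finset Γ) (η : Ideal (MvPowerSeries σ O)) :
    IJ D J ≤ η ↔ On D (· ∈ J) η := by
  rw [IJ, Ideal.span_le]
  constructor
  · intro h
    exact ⟨fun γ hγ => ⟨h (Or.inl ⟨γ, hγ, Or.inl rfl⟩), h (Or.inl ⟨γ, hγ, Or.inr (Or.inl rfl)⟩),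
      h (Or.inl ⟨γ, hγ, Or.inr (Or.inr rfl)⟩)⟩, fun γ hγ i j => h (Or.inr ⟨γ, hγ, i, j, rfl⟩)⟩
  · rintro h u (⟨γ, hγ, rfl | rfl | rfl⟩ | ⟨γ, hγ, i, j, rfl⟩)
    · exact (h.1 γ hγ).1
    · exact (h.1 γ hγ).2.1
    · exact (h.1 γ hγ).2.2
    · exact h.2 γ hγ i j

/-- the equations of the problem which is unramified on `A` -/
def EA (D : Dat O σ β Γ τ ι) (k : κ → MvPowerSeries σ O) (A : Finset Γ) :
    Ideal (MvPowerSeries σ O) :=
  IK D k ⊔ Ideal.span {u | ∃ γ ∈ A, ∃ i j, u = (D.T γ - 1) i j}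

open Classical in
/-- the multiplicity of the type `J` away from `A` -/
def mA [Fintype Γ] (D : Dat O σ β Γ τ ι) (A J : Finset Γ) : ℕ :=
  ∏ γ : {γ // γ ∉ A}, if γ.1 ∈ J then 2 ^ D.a γ.1 + 2 ^ D.a' γ.1 else 2 ^ (D.a γ.1 + 1)

/-- the blocks on `A` as good blocks -/
def spl (D : Dat O σ β Γ τ ι) (A : Finset Γ) :
    Dat O σ (β ⊕ {γ // γ ∈ A}) {γ // γ ∉ A} (tt τ {γ // γ ∈ A} (Fin 8))
      (tt ι {γ // γ ∈ A} (Fin 4)) where
  e :=
    { toFun := fun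
        | .inl ⟨.inl b, t⟩ => D.e (.inl ⟨b, t⟩)
        | .inl ⟨.inr γ, i⟩ => D.e (.inr (γ.1, i))
        | .inr (γ, i) => D.e (.inr (γ.1, i))
      inj' := by
        rintro (⟨b | γ, t⟩ | ⟨γ, t⟩) (⟨b' | γ', t'⟩ | ⟨γ', t'⟩) h
        · have h1 : (⟨b, t⟩ : Σ b, τ b) = ⟨b', t'⟩ := Sum.inl.inj (D.e.injective h)
          cases h1
          rfl
        · exact absurd (D.e.injective h) Sum.inl_ne_inr
        · exact absurd (D.e.injective h) Sum.inl_ne_inr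
        · exact absurd (D.e.injective h) Sum.inr_ne_inl
        · have h1 : ((γ.1, t) : Γ × Fin 8) = (γ'.1, t') := Sum.inr.inj (D.e.injective h)
          obtain ⟨h2, h3⟩ := Prod.mk.inj h1
          obtain rfl := Subtype.ext h2
          cases h3
          rfl
        · have h1 : ((γ.1, t) : Γ × Fin 8) = (γ'.1, t') := Sum.inr.inj (D.e.injective h)
          exact absurd ((Prod.mk.inj h1).1 ▸ γ.2) γ'.2
        · exact absurd (D.e.injective h) Sum.inr_ne_inl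
        · have h1 : ((γ.1, t) : Γ × Fin 8) = (γ'.1, t') := Sum.inr.inj (D.e.injective h)
          exact absurd ((Prod.mk.inj h1).1 ▸ γ'.2 : γ.1 ∈ A) γ.2
        · have h1 : ((γ.1, t) : Γ × Fin 8) = (γ'.1, t') := Sum.inr.inj (D.e.injective h)
          obtain ⟨h2, h3⟩ := Prod.mk.inj h1
          obtain rfl := Subtype.ext h2
          cases h3
          rfl }
  f := fun
    | .inl b => D.f b
    | .inr γ => eqU (mT (id : Fin 8 → Fin 8) (D.n γ.1))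
  s γ := D.s γ.1
  b γ := D.b γ.1
  n γ := D.n γ.1
  ξ γ := D.ξ γ.1
  l γ := D.l γ.1
  a γ := D.a γ.1
  a' γ := D.a' γ.1

variable (D : Dat O σ β Γ τ ι) (A : Finset Γ)

theorem spl_T (γ : {γ // γ ∉ A}) : (spl D A).T γ = D.T γ.1 := rfl

theorem spl_Φ (γ : {γ // γ ∉ A}) : (spl D A).Φ γ = D.Φ γ.1 := rfl

theorem spl_inl (b : β) (i : ι b) :
    CA.eqs (spl D A).eg (spl D A).f ⟨.inl b, i⟩ = CA.eqs D.eg D.f ⟨b, i⟩ := rfl

theorem spl_inr (γ : {γ // γ ∈ A}) (i : Fin 4) :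
    CA.eqs (spl D A).eg (spl D A).f ⟨.inr γ, i⟩ = eqU (D.T γ.1) i := by
  let e : Fin 8 ↪ σ := CA.emb (spl D A).eg (.inr γ)
  have h : CA.eqs (spl D A).eg (spl D A).f ⟨.inr γ, i⟩ =
    (rename (R := O) e).toRingHom (eqU (mT (id : Fin 8 → Fin 8) (D.n γ.1)) i) := rfl
  rw [h, ← eqU_map, mT_map (rename (R := O) e).toRingHom id id (D.x γ.1) (fun a => rename_C e a)
    (fun i => rename_X e i)]
  rfl

theorem eqU_iff {B : Type} [CommRing B] (T : Matrix (Fin 2) (Fin 2) B) (d : Ideal B) :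
    (∀ i, eqU T i ∈ d) ↔ ∀ i j, (T - 1) i j ∈ d := by
  constructor
  · intro h i j
    have a0 := h 0
    have a1 := h 1
    have a2 := h 2
    have a3 := h 3
    fin_cases i <;> fin_cases j <;> simpa [eqU] using ‹_›
  · intro h i
    have a0 := h 0 0
    have a1 := h 0 1
    have a2 := h 1 0
    have a3 := h 1 1
    fin_cases i
    · simpa [eqU] using a0
    · simpa [eqU] using a1
    · simpa [eqU] using a2
    · simpa [eqU] using a3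

theorem spl_IK (hξ : ∀ γ ∈ A, D.ξ γ = 1) (k : κ → MvPowerSeries σ O) :
    IK (spl D A) k = EA D k A := by
  have key : ∀ d : Ideal (MvPowerSeries σ O), IK (spl D A) k ≤ d ↔ EA D k A ≤ d := by
    intro d
    simp only [IK, EA, Dat.I, Dat.I0, sup_le_iff, Ideal.span_le, Set.range_subset_iff,
      SetLike.mem_coe]
    constructor
    · rintro ⟨⟨⟨h1, h2⟩, h3⟩, h4⟩
      have hU : ∀ γ ∈ A, ∀ i j, (D.T γ - 1) i j ∈ d := fun γ hγ =>
        (eqU_iff _ d).1 fun i => spl_inr D A ⟨γ, hγ⟩ i ▸ h1 ⟨.inr ⟨γ, hγ⟩, i⟩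
      have hq : ∀ γ ∈ A, (D.T γ).map (Ideal.Quotient.mk d) = 1 := by
        intro γ hγ
        rw [← sub_eq_zero, ← RingHom.mapMatrix_apply, ← map_one (Ideal.Quotient.mk d).mapMatrix,
          ← map_sub]
        ext i j
        exact Ideal.Quotient.eq_zero_iff_mem.2 (hU γ hγ i j)
      refine ⟨⟨⟨⟨fun ⟨b, i⟩ => h1 ⟨.inl b, i⟩, fun ⟨γ, i, j⟩ => ?_⟩, fun γ => ?_⟩, h4⟩, ?_⟩
      · by_cases hγ : γ ∈ A
        · rw [← Ideal.Quotient.eq_zero_iff_mem]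
          have e : (D.Φ γ * D.T γ - D.T γ ^ D.l γ * D.Φ γ).map (Ideal.Quotient.mk d) = 0 := by
            rw [← RingHom.mapMatrix_apply, map_sub, map_mul, map_mul, map_pow,
              RingHom.mapMatrix_apply _ (D.T γ), hq γ hγ, one_pow, mul_one, one_mul, sub_self]
          exact congrFun (congrFun e i) j
        · exact h2 (⟨γ, hγ⟩, i, j)
      · by_cases hγ : γ ∈ A
        · rw [← Ideal.Quotient.eq_zero_iff_mem, map_sub, RingHom.map_det, RingHom.mapMatrix_apply,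
            hq γ hγ, hξ γ hγ, map_one, map_one, Matrix.det_one, sub_self]
        · exact h3 ⟨γ, hγ⟩
      · rintro _ ⟨γ, hγ, i, j, rfl⟩
        exact hU γ hγ i j
    · rintro ⟨⟨⟨⟨h1, h2⟩, h3⟩, h4⟩, h5⟩
      refine ⟨⟨⟨?_, fun ⟨γ, i, j⟩ => h2 (γ.1, i, j)⟩, fun γ => h3 γ.1⟩, h4⟩
      rintro ⟨b | γ, i⟩
      · exact h1 ⟨b, i⟩
      · exact (spl_inr D A γ i).symm ▸
          (eqU_iff _ d).2 (fun i j => h5 ⟨γ.1, γ.2, i, j, rfl⟩) i
  exact le_antisymm ((key _).2 le_rfl) ((key _).1 le_rfl)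

theorem spl_ok {F : Type} [Field F] [CharP F 2] [∀ b, Fintype (τ b)] [∀ b, Fintype (ι b)]
    {ψ : O →+* F} {π : O} (hD : D.Ok ψ π) (hn : ∀ γ ∈ A, ψ (D.n γ) = 0) : (spl D A).Ok ψ π where
  surj := hD.surj
  ker := hD.ker
  const := by
    rintro (b | γ) i
    · exact hD.const b i
    · change ψ (constantCoeff (eqU (mT (id : Fin 8 → Fin 8) (D.n γ.1)) i)) = 0
      fin_cases i <;> simp [eqU, mT, hn γ.1 γ.2]
  blk := by
    rintro (b | γ)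
    · exact hD.blk b
    · have e : (fun i => MvPowerSeries.map ψ (eqU (mT (id : Fin 8 → Fin 8) (D.n γ.1)) i)) =
          eqU (mT (id : Fin 8 → Fin 8) (ψ (D.n γ.1))) := by
        funext i
        rw [← eqU_map, mT_map (MvPowerSeries.map ψ) ψ id id (fun a => map_C ψ a)
          (fun _ => map_X ψ _)]
      exact e ▸ (blk F 0 (ψ (D.n γ.1))).1
  s_ne γ := hD.s_ne γ.1
  xi γ := hD.xi γ.1
  odd γ := hD.odd γ.1
  odd' γ := hD.odd' γ.1

theorem spl_e {x : σ} (h : x ∉ Set.range D.e) : x ∉ Set.range (spl D A).e := by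
  rintro ⟨⟨b | γ, t⟩ | ⟨γ, t⟩, rfl⟩
  · exact h ⟨_, rfl⟩
  · exact h ⟨_, rfl⟩
  · exact h ⟨_, rfl⟩

theorem spl_card [Fintype β] [Fintype Γ] [DecidableEq Γ] [∀ b, Fintype (ι b)] :
    Fintype.card (Σ b, tt ι {γ // γ ∈ A} (Fin 4) b) + 4 * Fintype.card {γ // γ ∉ A} =
      Fintype.card (Σ b, ι b) + 4 * Fintype.card Γ := by
  rw [card_tt, Fintype.card_subtype_compl]
  have := Fintype.card_subtype_le (fun γ => γ ∈ A)
  omega

end defs

section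

variable {P S O F σ β Γ κ κ' : Type} {τ ι : β → Type} [CommRing P] [CommRing S] [CommRing O]
  [Algebra (MvPowerSeries σ O) S] [Field F] [CharP F 2]
  [Fintype σ] [Fintype β] [Fintype Γ] [Fintype κ] [DecidableEq κ] [∀ b, Fintype (τ b)]
  [∀ b, Fintype (ι b)]

/-- the ring data come from the blocks `D` and the equations `k` -/
structure Mt (X : Pt.RD P (MvPowerSeries σ O) S Γ κ') (D : Dat O σ β Γ τ ι) (π : O)
    (k : κ → MvPowerSeries σ O) : Prop where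
  hE : X.E = IK D k
  hπ : X.π₀ = C π
  hτ : X.τl = D.tl
  hD : ∀ γ, X.Dl γ = (D.Φ γ).trace
  hI : ∀ J, X.IJ J = IJ D J
  loc : Loc D π k X.p1 X.d

variable {X : Pt.RD P (MvPowerSeries σ O) S Γ κ'} {D : Dat O σ β Γ τ ι} {ψ : O →+* F} {π : O}
  {k : κ → MvPowerSeries σ O}

theorem Mt.le (H : Mt X D π k) {η : Ideal (MvPowerSeries σ O)} (h1 : X.E ≤ η) (h2 : X.π₀ ∈ η) :
    IK D k ⊔ Ideal.span {C π} ≤ η :=
  sup_le (H.hE ▸ h1) ((Ideal.span_singleton_le_iff_mem _).2 (H.hπ ▸ h2))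

theorem Mt.tp (H : Mt X D π k) {η : Ideal (MvPowerSeries σ O)} (h0 : η.IsPrime)
    (h1 : IK D k ⊔ Ideal.span {C π} ≤ η) (h2 : η ≤ X.p1)
    (h3 : ((X.d : ℕ) : WithBot ℕ∞) ≤ ringKrullDim (MvPowerSeries σ O ⧸ η)) : X.Tp η :=
  ⟨h0, h2, H.hE ▸ le_sup_left.trans h1,
    H.hπ ▸ h1 (Ideal.mem_sup_right (Ideal.mem_span_singleton_self _)), h3⟩

theorem Mt.ram (H : Mt X D π k) (η : Ideal (MvPowerSeries σ O)) :
    (· ∈ ty X.τl η) = D.Ram η := funext fun γ => propext (by rw [H.hτ]; exact D.mem_ty η γ)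

theorem Mt.tyI (H : Mt X D π k) : ∀ η, X.Tp η → X.IJ (ty X.τl η) ≤ η := fun η h => by
  rw [H.hI, IJ_le, H.ram]
  exact H.loc.typ η h.pr (H.le h.E h.π)

theorem Mt.dom (H : Mt X D π k) : ∀ η, X.Tp η → ∀ 𝔮 : Ideal (MvPowerSeries σ O), 𝔮.IsPrime →
    𝔮 ≤ X.p1 → X.E ≤ 𝔮 → X.π₀ ∈ 𝔮 → X.IJ (ty X.τl η) ≤ 𝔮 → η ≤ 𝔮 := by
  intro η h 𝔮 h1 h2 h3 h4 h5
  have h6 := H.tyI η h
  rw [H.hI, IJ_le] at h5 h6
  exact H.loc.dom _ η 𝔮 h.pr h1 (H.le h.E h.π) (H.le h3 h4) h.le h2 h6 h5 h.dim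

theorem Mt.tr (H : Mt X D π k) : ∀ η, X.Tp η → ∀ l, l ∉ ty X.τl η → X.Dl l ∉ η := by
  intro η h l hl
  rw [H.hD]
  exact H.loc.tr η h.pr (H.le h.E h.π) h.le h.dim l (by rw [← H.ram]; exact hl)

/-- the field `low` of `LD` -/
theorem Mt.low [IsDomain O] [IsDiscreteValuationRing O] [DecidableEq Γ] (H : Mt X D π k)
    (hD : D.Ok ψ π) (h2 : (2 : O) ≠ 0) {j : κ → σ} (hj : ∀ a, j a ∉ Set.range D.e)
    (hp : X.p1.IsPrime) (hm : mn k j ∉ X.p1) (a : Γ) (hξ : D.ξ a = 1) (hl : D.l a % 4 = 1)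
    (J : Finset Γ) (ha : a ∉ J) (hJ : X.IJ J ≤ X.p1) {E' : Ideal (MvPowerSeries σ O)}
    (h3 : X.E ≤ E') (h4 : (D.T a).trace ∈ E') :
    ∀ η, X.Tp η → ty X.τl η = insert a J → ∀ 𝔮 : Ideal (MvPowerSeries σ O), 𝔮.IsPrime → 𝔮 ≤ η →
      E' ≤ 𝔮 → X.π₀ ∉ 𝔮 → ∃ η', X.Tp η' ∧ ty X.τl η' = J ∧ 𝔮 ≤ η' := by
  intro η h e 𝔮 q1 q2 q3 q4
  rw [H.hI, IJ_le] at hJ
  obtain ⟨η', a1, a2, a3, a4, a5, a6⟩ := Rel.low hD h2 hj hp hm H.loc a hξ hl (· ∈ J) ha hJ h.pr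
    (H.le h.E h.π) h.le h.dim (fun γ => by
      rw [← H.ram, e]
      exact Finset.mem_insert.trans or_comm) q1 q2 (H.hE ▸ h3.trans q3) (q3 h4) (H.hπ ▸ q4)
  refine ⟨η', H.tp a1 a2 a3 a4, Finset.ext fun γ => ?_, a6⟩
  rw [← a5, ← H.ram]

/-- the field `len` of `ED` -/
theorem Mt.len (hL : LOCR) (H : Mt X D π k) (hD : D.Ok ψ π) (hF : ∀ a : F, ∃ b, b ^ 2 = a)
    {j : κ → σ} (hj : ∀ a, j a ∉ Set.range D.e) (hp : X.p1.IsPrime) (hm : mn k j ∉ X.p1)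
    (A : Finset Γ) (hξ : ∀ γ ∈ A, D.ξ γ = 1) (hn : ∀ γ ∈ A, ψ (D.n γ) = 0) :
    ∀ (η : Ideal (MvPowerSeries σ O)) [η.IsPrime], X.Tp η → EA D k A ≤ η →
      PA.ln η (MvPowerSeries σ O ⧸ (EA D k A ⊔ Ideal.span {X.π₀})) ≤
        (mA D A (ty X.τl η) : ℕ) := by
  classical
  intro η _ h h1
  have h2 : IK (spl D A) k ⊔ Ideal.span {C π} ≤ η := by
    rw [spl_IK D A hξ]
    exact sup_le h1 ((Ideal.span_singleton_le_iff_mem _).2 (H.hπ ▸ h.π))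
  obtain ⟨top, L⟩ := hL O F σ _ _ κ _ _ (spl D A) ψ π (spl_ok D A hD hn) hF k j
    (fun a => spl_e D A (hj a)) X.p1 hp (h2.trans h.le) hm
  have c1 := L.card
  have c2 := H.loc.card
  have c3 := spl_card (ι := ι) A
  obtain rfl : top = X.d := by omega
  have h3 := L.len η h2 h.le h.dim
  rw [spl_IK D A hξ, ← H.hπ] at h3
  refine h3.trans (le_of_eq (congrArg _ (Finset.prod_congr rfl fun γ _ => ?_)))
  have e : γ.1 ∈ ty X.τl η ↔ (spl D A).Ram η γ := by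
    have := congrFun (H.ram η) γ.1
    exact this.to_iff
  rw [Dat.m]
  by_cases c : (spl D A).Ram η γ
  · rw [if_pos c, if_pos (e.2 c)]
    rfl
  · rw [if_neg c, if_neg fun c' => c (e.1 c')]
    rfl

/-- the field `ch0` of `ED` -/
theorem Mt.ch0 [IsDomain O] [IsDiscreteValuationRing O] [Core.Coef O] (H : Mt X D π k)
    (hD : D.Ok ψ π) (hx : ∀ γ, D.ξ γ ^ (D.l γ - 1) = 1) (hp : X.p1.IsPrime) (hπ : X.π₀ ∈ X.p1)
    (A : Finset Γ) (hξ : ∀ γ ∈ A, D.ξ γ = 1) (hn : ∀ γ ∈ A, ψ (D.n γ) = 0) :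
    ∀ Z : Ideal (MvPowerSeries σ O), Z.IsPrime → Z ≤ X.p1 → EA D k A ≤ Z → X.π₀ ∉ Z →
      ∃ 𝔮 η : Ideal (MvPowerSeries σ O), 𝔮.IsPrime ∧ X.Tp η ∧ EA D k A ≤ 𝔮 ∧ 𝔮 ≤ Z ∧ 𝔮 ≤ η := by
  classical
  intro Z z1 z2 z3 z4
  have := charZero_of_coef O
  have hmax : maximalIdeal O = Ideal.span {π} := by
    rw [← hD.ker]
    exact (eq_maximalIdeal (RingHom.ker_isMaximal_of_surjective ψ hD.surj)).symm
  have hinj : Function.Injective ((Ideal.Quotient.mk Z).comp (C : O →+* MvPowerSeries σ O)) := by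
    rw [injective_iff_map_eq_zero]
    intro x hx0
    by_contra hne
    obtain ⟨ϖ, hϖ⟩ := IsDiscreteValuationRing.exists_irreducible O
    obtain ⟨n, u, hu⟩ := IsDiscreteValuationRing.eq_unit_mul_pow_irreducible hne hϖ
    rw [RingHom.comp_apply, Ideal.Quotient.eq_zero_iff_mem, hu, map_mul, map_pow] at hx0
    have h4 := z1.mem_of_pow_mem n ((z1.mem_or_mem hx0).resolve_left fun h =>
      z1.ne_top (Z.eq_top_of_isUnit_mem h (u.isUnit.map C)))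
    have h5 : π ∈ Ideal.span {ϖ} := by
      rw [← hϖ.maximalIdeal_eq, hmax]
      exact Ideal.mem_span_singleton_self _
    obtain ⟨c, hc⟩ := Ideal.mem_span_singleton'.1 h5
    refine z4 ?_
    rw [H.hπ, ← hc, map_mul]
    exact Z.mul_mem_left _ h4
  have : CharZero (MvPowerSeries σ O ⧸ Z) := charZero_of_injective_ringHom hinj
  have c2 := H.loc.card
  have c3 := spl_card (ι := ι) A
  obtain ⟨𝔮, η, a1, a2, a3, a4, a5, a6, a7⟩ := ch0R O F σ _ _ κ _ _ (spl D A) ψ π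
    (spl_ok D A hD hn) (fun γ => hx γ.1) k X.d (by omega) _ (Ideal.Quotient.mk Z)
    (by rw [Ideal.mk_ker, spl_IK D A hξ]; exact z3) X.p1 hp (by rw [Ideal.mk_ker]; exact z2)
    (H.hπ ▸ hπ)
  rw [spl_IK D A hξ] at a3
  rw [Ideal.mk_ker] at a4
  exact ⟨𝔮, η, a1, H.tp a2 (sup_le (le_sup_left.trans (a3.trans (le_sup_left.trans a5)))
    (le_sup_right.trans a5)) a6 a7, a3, a4, le_sup_left.trans a5⟩

end

end Vale.Agent.P022G.Rel
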