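import Vale.Agent.P022G.Rel.Tri
import Vale.Agent.P022D.Rl.Loc

/-!
# P022G: the partial Frobenius on the ramified tame blocks
-/

open IsLocalRing MvPowerSeries

noncomputable section

namespace Vale.Agent.P022G.Rel

open Vale.Agent.P022D Vale.Agent.P022D.Rl

section chain

variable {F σ : Type} [Field F] [Fintype σ]

theorem chain (θ : MvPowerSeries σ F →+* MvPowerSeries σ F) (hC : ∀ a, θ (C a) = C a)
    (hm : ∀ i, constantCoeff (θ (X i)) = 0) (s : σ)
    (hX : ∀ i, pderiv F s (θ (X i)) = θ (pderiv F s (X i))) (h : MvPowerSeries σ F) :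
    pderiv F s (θ h) = θ (pderiv F s h) := by
  have key : ∀ (k : ℕ) (h : MvPowerSeries σ F),
      pderiv F s (θ h) - θ (pderiv F s h) ∈ maximalIdeal (MvPowerSeries σ F) ^ k := by
    intro k
    induction k with
    | zero => simp
    | succ k ih =>
      intro h
      have h1 : h - C (constantCoeff h) ∈ Ideal.span (Set.range (X : σ → MvPowerSeries σ F)) := by
        rw [← Vale.Agent.P177.mvPowerSeries_maximalIdeal]
        exact CA.mem_max_power.2 (by simp)
      obtain ⟨c, hc⟩ := Ideal.mem_span_range_iff_exists_fun.1 h1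
      have h2 : h = C (constantCoeff h) + ∑ i, c i * X i := by rw [hc]; ring
      rw [h2, map_add, map_add, map_add, hC, pderiv_C, zero_add, zero_add, map_sum, map_sum,
        map_sum, map_sum, ← Finset.sum_sub_distrib]
      refine Ideal.sum_mem _ fun i _ => ?_
      have e : pderiv F s (θ (c i * X i)) - θ (pderiv F s (c i * X i)) =
          (pderiv F s (θ (c i)) - θ (pderiv F s (c i))) * θ (X i) := by
        rw [map_mul, Derivation.leibniz, Derivation.leibniz, hX]
        simp only [smul_eq_mul, map_add, map_mul]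
        ring
      rw [e, pow_succ]
      exact Ideal.mul_mem_mul (ih _) (CA.mem_max_power.2 (hm i))
  have h3 : pderiv F s (θ h) - θ (pderiv F s h) ∈
      ⨅ k : ℕ, maximalIdeal (MvPowerSeries σ F) ^ k := Ideal.mem_iInf.2 fun k => key k h
  rwa [Ideal.iInf_pow_eq_bot_of_isLocalRing _ (maximalIdeal.isMaximal _).ne_top, Ideal.mem_bot,
    sub_eq_zero] at h3

end chain

variable {F σ β Γ κ : Type} {τ ι : β → Type} [Field F] (D : Dat F σ β Γ τ ι) [Fintype σ]
  [CharP F 2]

theorem ex_maps (J : Γ → Prop) (r : Γ → F) :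
    ∃ θ ρ : MvPowerSeries σ F →+* MvPowerSeries σ F, (∀ a, θ (C a) = C a) ∧
      (∀ a, ρ (C a) = C a ^ 2) ∧
      (∀ s, (∀ γ i, J γ → s ≠ D.x γ i) → θ (X s) = X s ∧ ρ (X s) = X s ^ 2) ∧
      ∀ γ i, J γ → θ (X (D.x γ i)) = (if i = 4 ∨ i = 7 then
          (C (r γ) + X (D.x γ 5)) * X (D.x γ 6) else X (D.x γ i) ^ 2) ∧
        ρ (X (D.x γ i)) = if i = 4 ∨ i = 7 then 0 else X (D.x γ i) := by
  classical
  obtain ⟨cl, h1, h2⟩ : ∃ cl : σ → Option (Γ × Fin 8),
      (∀ s, (∀ γ i, J γ → s ≠ D.x γ i) → cl s = none) ∧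
      ∀ γ i, J γ → cl (D.x γ i) = some (γ, i) := by
    refine ⟨fun s => if h : ∃ y : Γ × Fin 8, J y.1 ∧ s = D.x y.1 y.2 then some h.choose else none,
      fun s hs => dif_neg fun ⟨y, h1, h2⟩ => hs _ _ h1 h2, fun γ i hγ => ?_⟩
    have h : ∃ y : Γ × Fin 8, J y.1 ∧ D.x γ i = D.x y.1 y.2 := ⟨(γ, i), hγ, rfl⟩
    have h3 := D.x_inj h.choose_spec.2
    simp only [dif_pos h, Option.some.injEq]
    exact Prod.ext h3.1.symm h3.2.symm
  refine ⟨sb (fun s => (cl s).elim (X s) fun y => if y.2 = 4 ∨ y.2 = 7 then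
      (C (r y.1) + X (D.x y.1 5)) * X (D.x y.1 6) else X s ^ 2) fun s => ?_,
    th (fun s => (cl s).elim (X s ^ 2) fun y => if y.2 = 4 ∨ y.2 = 7 then 0 else X s) fun s => ?_,
    fun a => sb_C _ _ a, fun a => th_C _ _ a, fun s hs => ?_, fun γ i hγ => ?_⟩
  · cases cl s with
    | none => simp
    | some y => simp only [Option.elim]; split_ifs <;> simp
  · cases cl s with
    | none => simp
    | some y => simp only [Option.elim]; split_ifs <;> simp
  · rw [sb_X, th_X, h1 s hs]
    exact ⟨rfl, rfl⟩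
  · rw [sb_X, th_X, h2 γ i hγ]
    exact ⟨rfl, rfl⟩

omit [Fintype σ] [CharP F 2] in
theorem ee_out {s : σ} (h : s ∉ Set.range D.e) : s ∉ Set.range D.ee := by
  rintro ⟨⟨b | γ, t⟩, rfl⟩
  · exact h ⟨_, rfl⟩
  · exact h ⟨_, rfl⟩

variable [Fintype β] [Fintype Γ] [Fintype κ] [DecidableEq κ] [∀ b, Fintype (τ b)]
  [∀ b, Fintype (ι b)]

theorem frobR (hF : ∀ a : F, ∃ b, b ^ 2 = a) (hb : ∀ b, CA.BlkPt (D.f b)) (J : Γ → Prop)
    (k : κ → MvPowerSeries σ F) (j : κ → σ) (hj : ∀ a, j a ∉ Set.range D.e)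
    (p : Ideal (MvPowerSeries σ F)) [p.IsPrime]
    (hp : ∀ x, CA.eqs D.ee (D.ff (D.g1 J)) x ∈ p) (hk : ∀ a, k a ∈ p) (hd : mn k j ∉ p) :
    ∃ d : ℕ, d + Fintype.card (Σ b, ι b) + 4 * Fintype.card Γ + Fintype.card κ = Fintype.card σ ∧
      ∃ Z : Ideal (MvPowerSeries σ F), ∀ η : Ideal (MvPowerSeries σ F), η.IsPrime → η ≤ p →
        (∀ x, CA.eqs D.ee (D.ff (D.g1 J)) x ∈ η) → (∀ a, k a ∈ η) →
        Z ≤ η ∧ ringKrullDim (MvPowerSeries σ F ⧸ η) ≤ d ∧
          ((d : WithBot ℕ∞) ≤ ringKrullDim (MvPowerSeries σ F ⧸ η) → η = Z) := by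
  classical
  have h2 : (2 : MvPowerSeries σ F) = 0 := two_ps
  choose rt hrt using hF
  have hrC : ∀ a, (C (rt a) : MvPowerSeries σ F) ^ 2 = C a := fun a => by rw [← map_pow, hrt]
  obtain ⟨θ, ρ, θC, ρC, hout, hin⟩ := ex_maps D J fun γ => rt (D.n γ)
  have hcases : ∀ s, (∀ γ i, J γ → s ≠ D.x γ i) ∨ ∃ γ i, J γ ∧ s = D.x γ i := fun s => by
    by_contra h
    push Not at h
    obtain ⟨⟨γ, i, h1, h3⟩, h4⟩ := h
    exact h4 γ i h1 h3
  let g' : Γ → Fin 4 → MvPowerSeries (Fin 8) F := fun γ =>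
    if J γ then eN0 id (rt (D.b γ)) (rt (D.n γ)) else eqU (mT id (D.n γ))
  have hN : ∀ η : Ideal (MvPowerSeries σ F), (∀ x, CA.eqs D.ee (D.ff (D.g1 J)) x ∈ η) →
      ∀ γ, J γ → ∀ i, eqN (D.Φ γ) (D.T γ) i ∈ η := fun η hη γ h i => by
    have := hη ⟨.inr γ, i⟩
    rwa [Dat.eqs_inr, Dat.g1, if_pos h, Dat.rn_N] at this
  have hsq : ∀ η : Ideal (MvPowerSeries σ F), η.IsPrime →
      (∀ x, CA.eqs D.ee (D.ff (D.g1 J)) x ∈ η) → ∀ g, ρ (θ g) - g ^ 2 ∈ η := by
    intro η hη he g
    refine ext_mod η (ρ.comp θ) (sqr h2) (fun a => ?_) (fun s => ?_) (fun s => ?_) g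
    · rw [RingHom.comp_apply, θC, ρC, sqr_apply]
    · rw [RingHom.comp_apply, sqr_apply]
      rcases hcases s with h | ⟨γ, i, h, rfl⟩
      · rw [(hout s h).1, (hout s h).2, sub_self]
        exact η.zero_mem
      · rw [(hin γ i h).1]
        split_ifs with hi
        · rw [map_mul, map_add, ρC, hrC, (hin γ 5 h).2, (hin γ 6 h).2, if_neg (by decide),
            if_neg (by decide)]
          have a0 := hN η he γ h 0
          have a2 := hN η he γ h 2
          simp only [eqN, Dat.T, mT, Matrix.of_apply, Matrix.cons_val', Matrix.cons_val_zero,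
            Matrix.cons_val_one, Matrix.cons_val_fin_one, Matrix.cons_val,
            add_sub_cancel_left] at a0 a2
          rcases hi with rfl | rfl
          · convert a2 using 1
            linear_combination (-X (D.x γ 4) ^ 2) * h2
          · convert η.add_mem a2 (η.pow_mem_of_mem a0 2 (by norm_num)) using 1
            linear_combination (-X (D.x γ 4) ^ 2 - X (D.x γ 7) ^ 2 - X (D.x γ 4) * X (D.x γ 7) -
              2 - 2 * X (D.x γ 4) - 2 * X (D.x γ 7)) * h2
        · rw [map_pow, (hin γ i h).2, if_neg hi, sub_self]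
          exact η.zero_mem
    · rw [RingHom.comp_apply]
      rcases hcases s with h | ⟨γ, i, h, rfl⟩
      · rw [(hout s h).1, (hout s h).2]
        simp
      · rw [(hin γ i h).1]
        split_ifs with hi
        · rw [map_mul, (hin γ 6 h).2, if_neg (by decide)]
          simp
        · rw [map_pow, (hin γ i h).2, if_neg hi]
          simp
  have hren : ∀ η : Ideal (MvPowerSeries σ F), η.IsPrime → ∀ (ν : Type) [Fintype ν] (u : ν ↪ σ),
      (∀ t γ i, J γ → u t ≠ D.x γ i) → ∀ h : MvPowerSeries ν F, rename u h ∈ η →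
      ρ (rename u h) ∈ η := by
    intro η hη ν _ u hu h hh
    have h3 := ext_mod η (ρ.comp (rename (R := F) u).toRingHom)
      ((sqr h2).comp (rename (R := F) u).toRingHom) (fun a => by
        change ρ (rename _ (C a)) = rename _ (C a) ^ 2
        rw [rename_C, ρC]) (fun t => by
        change ρ (rename _ (X t)) - rename _ (X t) ^ 2 ∈ η
        rw [rename_X, (hout _ (hu t)).2, sub_self]
        exact η.zero_mem) (fun t => by
        change constantCoeff (ρ (rename _ (X t))) = 0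
        rw [rename_X, (hout _ (hu t)).2]
        simp) h
    have h4 : ρ (rename u h) - rename u h ^ 2 + rename u h ^ 2 ∈ η :=
      η.add_mem h3 (η.pow_mem_of_mem hh 2 (by norm_num))
    rwa [sub_add_cancel] at h4
  have hcov : ∀ η : Ideal (MvPowerSeries σ F), η.IsPrime →
      (∀ x, CA.eqs D.ee (D.ff (D.g1 J)) x ∈ η) → ∀ x, CA.eqs D.ee (D.ff g') x ∈ η.comap ρ := by
    rintro η hη he ⟨b | γ, i⟩
    · exact hren η hη _ (CA.emb D.eg b)
        (fun t γ i _ h => Sum.inl_ne_inr (D.e.injective h)) (D.f b i) (he ⟨.inl b, i⟩)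
    · change ρ (D.rn γ (g' γ i)) ∈ η
      by_cases h : J γ
      · have a1 := hN η he γ h 1
        have a3 := hN η he γ h 3
        simp only [eqN, Dat.T, mT, Dat.Φ, mP, Matrix.of_apply, Matrix.cons_val',
          Matrix.cons_val_zero, Matrix.cons_val_one, Matrix.cons_val_fin_one,
          Matrix.cons_val] at a1 a3
        have hx := fun i => (hin γ i h).2
        simp only [g', if_pos h]
        fin_cases i
        · simp [eN0, Dat.rn_X, hx]
        · simp [eN0, Dat.rn_X, hx]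
        · simp only [eN0, Dat.rn_X, hx, Fin.reduceFinMk, Matrix.cons_val, map_add, Fin.reduceEq,
            or_self, if_false, id]
          convert a1 using 1
          linear_combination (-C (D.s γ)) * h2
        · simpa [eN0, Dat.rn_X, Dat.rn_C, hx, ρC, hrC] using a3
      · have h3 : D.rn γ (D.g1 J γ i) ∈ η := he ⟨.inr γ, i⟩
        rw [Dat.g1, if_neg h] at h3
        simp only [g', if_neg h]
        exact hren η hη _ (D.xe γ) (fun t γ' i' h' h4 => h ((D.x_inj (i := t) h4).1 ▸ h')) _ h3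
  have hkc : ∀ η : Ideal (MvPowerSeries σ F), η.IsPrime →
      (∀ x, CA.eqs D.ee (D.ff (D.g1 J)) x ∈ η) → ∀ g, g ∈ η ↔ θ g ∈ η.comap ρ := by
    intro η hη he g
    constructor
    · intro hg
      have := η.add_mem (hsq η hη he g) (η.pow_mem_of_mem hg 2 (by norm_num))
      rwa [sub_add_cancel] at this
    · intro hg
      have := η.sub_mem hg (hsq η hη he g)
      rw [sub_sub_cancel] at this
      exact hη.mem_of_pow_mem 2 this
  have hmn : mn (fun a => θ (k a)) j = θ (mn k j) := by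
    rw [map_mn, mn]
    congr 1
    ext1 a b
    have hb' : ∀ γ i, j b ≠ D.x γ i := fun γ i h => hj b ⟨_, h.symm⟩
    refine chain θ θC (fun s => ?_) (j b) (fun s => ?_) (k a)
    · rcases hcases s with h | ⟨γ, i, h, rfl⟩
      · rw [(hout s h).1, constantCoeff_X]
      · rw [(hin γ i h).1]
        split_ifs <;> simp
    · rcases hcases s with h | ⟨γ, i, h, rfl⟩
      · rw [(hout s h).1]
        by_cases h3 : s = j b
        · rw [h3, pderiv_X_self, map_one]
        · rw [pderiv_X_of_ne h3, map_zero]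
      · rw [(hin γ i h).1, pderiv_X_of_ne (hb' γ i).symm, map_zero]
        split_ifs <;> simp [pderiv_X_of_ne (hb' γ _).symm]
  obtain ⟨d, hd1, Q, hQ, -, hdim, hmin⟩ := dom_tri D.ee (D.ff g') (by
    rintro (b | γ)
    · exact hb b
    · change CA.BlkPt (g' γ)
      simp only [g']
      split_ifs with h
      · exact (blk F _ _).2
      · exact (blk F (D.b γ) _).1) (fun a => θ (k a)) j (fun a => ee_out D (hj a)) (p.comap ρ)
    (hcov p inferInstance hp) (fun a => (hkc p inferInstance hp _).1 (hk a))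
    (fun h => hd ((hkc p inferInstance hp _).2 (hmn ▸ h)))
  rw [card_tt, ← add_assoc] at hd1
  refine ⟨d, hd1, Q.comap θ, fun η hη hle he hkη => ?_⟩
  have h3 : Q ≤ η.comap ρ := hmin _ inferInstance (Ideal.comap_mono hle) (hcov η hη he)
    fun a => (hkc η hη he _).1 (hkη a)
  exact ⟨fun g hg => (hkc η hη he g).2 (h3 hg), frob_trick θ ρ η Q hQ (hsq η hη he) h3 hdim.le⟩

end Vale.Agent.P022G.Rel
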