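import Vale.Agent.P022G.Rel.Pdb
import Vale.Agent.P022G.Cat
import Vale.Agent.P022D.Rl.Ch0

/-!
# P022G: from the ramified component to the unramified component
-/

set_option linter.all false

open MvPowerSeries IsLocalRing

noncomputable section

namespace Vale.Agent.P022G.Rel

open Vale.Agent.P022D Vale.Agent.P022D.Rl

theorem mat_low {B : Type} [CommRing B] [IsDomain B] {Φ T : Matrix (Fin 2) (Fin 2) B} {l : ℕ}
    (hl : l % 4 = 1) (h : Φ * T = T ^ l * Φ) (ht : T.trace = 0) (hd : T.det = 1)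
    (hc : (T 0 1 = 0 ∧ Φ 0 1 ≠ 0) ∨ (T 1 0 = 0 ∧ Φ 1 0 ≠ 0)) : (2 : B) = 0 ∧ T = 1 := by
  rw [Matrix.trace_fin_two] at ht
  rw [Matrix.det_fin_two] at hd
  have h2 : T * T = -1 := by
    ext i j
    fin_cases i <;> fin_cases j <;> simp [Matrix.mul_apply, Fin.sum_univ_two]
    · linear_combination T 0 0 * ht - hd
    · linear_combination T 0 1 * ht
    · linear_combination T 1 0 * ht
    · linear_combination T 1 1 * ht - hd
  have h4 : T ^ 4 = 1 := by
    rw [show 4 = 2 * 2 from rfl, pow_mul, pow_two T, h2]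
    simp
  rw [← Nat.div_add_mod l 4, hl, pow_succ, pow_mul, h4, one_pow, one_mul] at h
  have c00 := congrFun (congrFun h 0) 0
  have c01 := congrFun (congrFun h 0) 1
  have c10 := congrFun (congrFun h 1) 0
  simp only [Matrix.mul_apply, Fin.sum_univ_two] at c00 c01 c10
  have key : T 0 1 = 0 ∧ T 1 0 = 0 ∧ T 0 0 = T 1 1 := by
    rcases hc with ⟨a, b⟩ | ⟨a, b⟩
    · refine ⟨a, (mul_eq_zero.1 (?_ : Φ 0 1 * T 1 0 = 0)).resolve_left b,
        sub_eq_zero.1 ((mul_eq_zero.1 (?_ : Φ 0 1 * (T 0 0 - T 1 1) = 0)).resolve_left b)⟩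
      · linear_combination c00 + Φ 1 0 * a
      · linear_combination -c01 + (Φ 0 0 - Φ 1 1) * a
    · refine ⟨(mul_eq_zero.1 (?_ : Φ 1 0 * T 0 1 = 0)).resolve_left b, a,
        sub_eq_zero.1 ((mul_eq_zero.1 (?_ : Φ 1 0 * (T 0 0 - T 1 1) = 0)).resolve_left b)⟩
      · linear_combination -c00 + Φ 0 1 * a
      · linear_combination c10 + (Φ 0 0 - Φ 1 1) * a
  obtain ⟨k1, k2, k3⟩ := key
  have e2 : (2 : B) = 0 := by
    linear_combination T 0 0 * ht - 2 * hd - T 0 0 * k3 - 2 * T 1 0 * k1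
  have e1 : T 0 0 = 1 := by
    refine sub_eq_zero.1 (pow_eq_zero_iff (two_ne_zero) |>.1 (?_ : (T 0 0 - 1) ^ 2 = 0))
    linear_combination hd + T 0 0 * k3 + T 1 0 * k1 + (1 - T 0 0) * e2
  refine ⟨e2, ?_⟩
  ext i j
  fin_cases i <;> fin_cases j <;> simp [k1, k2, ← k3, e1]

theorem map_pderiv' {O F σ : Type} [CommRing O] [CommRing F] (ψ : O →+* F) (j : σ)
    (g : MvPowerSeries σ O) :
    MvPowerSeries.map ψ (pderiv O j g) = pderiv F j (MvPowerSeries.map ψ g) := by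
  ext n
  simp [coeff_pderiv, coeff_map]

section

variable {O F σ β Γ κ : Type} {τ ι : β → Type} [CommRing O] [Field F] [CharP F 2]
  [Fintype σ] [Fintype β] [Fintype Γ] [Fintype κ] [DecidableEq κ] [∀ b, Fintype (τ b)]
  [∀ b, Fintype (ι b)] {D : Dat O σ β Γ τ ι} {ψ : O →+* F} {π : O}

/-- a prime of codimension one in the special fibre is generic away from one place -/
theorem generic (hD : D.Ok ψ π) {k : κ → MvPowerSeries σ O} {j : κ → σ}
    (hj : ∀ a, j a ∉ Set.range D.e) {p : Ideal (MvPowerSeries σ O)} (hm : mn k j ∉ p) {t : ℕ}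
    (H : Loc D π k p (t + 1)) {lam : Ideal (MvPowerSeries σ O)} (hp : lam.IsPrime)
    (hle : IK D k ⊔ Ideal.span {C π} ≤ lam) (hlp : lam ≤ p)
    (hd : (t : WithBot ℕ∞) ≤ ringKrullDim (MvPowerSeries σ O ⧸ lam)) (a : Γ)
    (h1 : ∀ i j, (D.T a - 1) i j ∈ lam) (h2 : (D.Φ a).trace ∈ lam) :
    (∀ l, l ≠ a → (∀ i j, (D.T l - 1) i j ∈ lam) → (D.Φ l).trace ∉ lam) ∧
      ¬ (D.Φ a 0 1 ∈ lam ∧ D.Φ a 1 0 ∈ lam) := by
  classical
  have hμ := CA.map_surj (σ := σ) ψ hD.surj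
  have hker := CA.ker_map (σ := σ) ψ hD.ker
  have hk : RingHom.ker (MvPowerSeries.map (σ := σ) ψ) ≤ lam := hker ▸ le_sup_right.trans hle
  obtain ⟨P, hP, rfl⟩ : ∃ P : Ideal (MvPowerSeries σ F), P.IsPrime ∧
      lam = P.comap (MvPowerSeries.map ψ) := by
    refine ⟨lam.map (MvPowerSeries.map ψ), Ideal.map_isPrime_of_surjective hμ hk, ?_⟩
    rw [Ideal.comap_map_of_surjective _ hμ, ← RingHom.ker_eq_comap_bot, sup_eq_left.2 hk]
  rw [ringKrullDim_eq_of_ringEquiv (CA.comapEquiv _ hμ P)] at hd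
  let K := FractionRing (MvPowerSeries σ F ⧸ P)
  have z : ∀ g : MvPowerSeries σ O, g ∈ P.comap (MvPowerSeries.map ψ) →
      CA.gn P K (MvPowerSeries.map ψ g) = 0 := fun g hg => (CA.gn_ker P K _).1 hg
  have zT : ∀ γ, (∀ i j, (D.T γ - 1) i j ∈ P.comap (MvPowerSeries.map ψ)) →
      ∀ i j, CA.gn P K (((D.red ψ).T γ - 1) i j) = 0 := by
    intro γ h i j
    have e : (D.red ψ).T γ - 1 = (D.T γ - 1).map (MvPowerSeries.map ψ) := by
      rw [Dat.red_T]
      simp only [← RingHom.mapMatrix_apply, map_sub, map_one]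
    rw [e]
    exact z _ (h i j)
  have zt : ∀ M : Matrix (Fin 2) (Fin 2) (MvPowerSeries σ O),
      M.trace ∈ P.comap (MvPowerSeries.map ψ) →
        CA.gn P K (M.map (MvPowerSeries.map ψ)).trace = 0 := by
    intro M h
    have e : (M.map (MvPowerSeries.map ψ)).trace = MvPowerSeries.map ψ M.trace := by
      simp [Matrix.trace_fin_two]
    rw [e]
    exact z _ h
  have r4 : ∀ γ, Rk (D.red ψ) (CA.gn P K) γ 4 := by
    intro γ
    have ho := H.typ _ hp hle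
    by_cases hr : D.Ram (P.comap (MvPowerSeries.map ψ)) γ
    · obtain ⟨a1, a2, a3⟩ := ho.1 γ hr
      refine rkN4 _ _ _ ?_ ?_ ?_ ?_
      · rw [Dat.red_T]; exact zt _ a1
      · rw [Dat.red_Φ]; exact zt _ a2
      · rw [Dat.red_T, Dat.red_Φ, ← Matrix.map_mul]; exact zt _ a3
      · have e : ((D.red ψ).T γ).det - 1 = MvPowerSeries.map ψ ((D.T γ).det - C (D.ξ γ)) := by
          rw [Dat.red_T, ← RingHom.mapMatrix_apply, ← RingHom.map_det, map_sub, map_C, hD.xi,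
            map_one]
        rw [e]
        exact z _ (hle (Ideal.mem_sup_left (Ideal.mem_sup_left (Ideal.mem_sup_right
          (Ideal.subset_span ⟨γ, rfl⟩)))))
    · exact rkU4 _ _ _ (zT γ (ho.2 γ hr))
  have r3 : ∀ γ, (∀ i j, (D.T γ - 1) i j ∈ P.comap (MvPowerSeries.map ψ)) →
      (D.Φ γ).trace ∈ P.comap (MvPowerSeries.map ψ) → Rk (D.red ψ) (CA.gn P K) γ 3 :=
    fun γ a1 a2 => rkU3 _ _ _ (zT γ a1) (by rw [Dat.red_Φ]; exact zt _ a2)
  have main : ∀ r c : Γ → ℕ, (∀ γ, Rk (D.red ψ) (CA.gn P K) γ (r γ)) → (∀ γ, r γ + c γ ≤ 4) →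
      ∑ γ, c γ ≤ 1 := by
    intro r c hr hc
    obtain ⟨d, e1, e2⟩ := pdb (D.red ψ) hD.blk (fun a => MvPowerSeries.map ψ (k a)) j hj P
      (fun q => by
        have e : CA.eqs (D.red ψ).eg (D.red ψ).f q =
          MvPowerSeries.map ψ (CA.eqs D.eg D.f q) := rename_map _ ψ _
        rw [e]
        exact hle (Ideal.mem_sup_left (Ideal.mem_sup_left (Ideal.mem_sup_left
          (Ideal.mem_sup_left (Ideal.subset_span ⟨_, rfl⟩))))))
      (fun a => hle (Ideal.mem_sup_left (Ideal.mem_sup_right (Ideal.subset_span ⟨a, rfl⟩))))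
      (fun h => hm (hlp (by
        have e : MvPowerSeries.map ψ (mn k j) = mn (fun a => MvPowerSeries.map ψ (k a)) j := by
          rw [mn, mn, RingHom.map_det]
          exact congrArg Matrix.det (Matrix.ext fun a b => map_pderiv' ψ _ _)
        rw [Ideal.mem_comap, e]
        exact h))) r hr
    have e3 : t ≤ d := by exact_mod_cast hd.trans e1
    have e4 := H.card
    have e5 := Finset.sum_le_sum fun γ (_ : γ ∈ Finset.univ) => hc γ
    rw [Finset.sum_add_distrib, Finset.sum_const, Finset.card_univ, smul_eq_mul] at e5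
    omega
  constructor
  · intro l hl a1 a2
    have := main (fun γ => if γ = a ∨ γ = l then 3 else 4)
      (fun γ => (if γ = a then 1 else 0) + (if γ = l then 1 else 0)) (fun γ => by
        split_ifs with h
        · rcases h with rfl | rfl
          · exact r3 _ h1 h2
          · exact r3 _ a1 a2
        · exact r4 γ) (fun γ => by
        by_cases c1 : γ = a
        · subst c1; simp [hl.symm]
        · by_cases c2 : γ = l
          · subst c2; simp [hl]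
          · simp [c1, c2])
    simp [Finset.sum_add_distrib] at this
  · rintro ⟨a1, a2⟩
    have := main (fun γ => if γ = a then 1 else 4) (fun γ => if γ = a then 3 else 0) (fun γ => by
        split_ifs with h
        · subst h
          refine rkU1 _ _ _ (zT _ h1) (by rw [Dat.red_Φ]; exact zt _ h2) ?_ ?_
          · rw [Dat.red_Φ]; exact z _ a1
          · rw [Dat.red_Φ]; exact z _ a2
        · exact r4 γ) (fun γ => by split_ifs <;> simp)
    simp at this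

/-- **LOW** -/
theorem low [IsDomain O] [IsDiscreteValuationRing O] (hD : D.Ok ψ π) (h2 : (2 : O) ≠ 0)
    {k : κ → MvPowerSeries σ O} {j : κ → σ} (hj : ∀ a, j a ∉ Set.range D.e)
    {p : Ideal (MvPowerSeries σ O)} (hp : p.IsPrime) (hm : mn k j ∉ p) {top : ℕ}
    (H : Loc D π k p top) (a : Γ) (hξ : D.ξ a = 1) (hl : D.l a % 4 = 1) (J : Γ → Prop)
    (ha : ¬ J a) (hJ : On D J p) {η : Ideal (MvPowerSeries σ O)} (hη : η.IsPrime)
    (hηI : IK D k ⊔ Ideal.span {C π} ≤ η) (hηp : η ≤ p)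
    (hηd : (top : WithBot ℕ∞) ≤ ringKrullDim (MvPowerSeries σ O ⧸ η))
    (hηJ : ∀ γ, D.Ram η γ ↔ J γ ∨ γ = a) {𝔮 : Ideal (MvPowerSeries σ O)} (hq : 𝔮.IsPrime)
    (hqη : 𝔮 ≤ η) (hqI : IK D k ≤ 𝔮) (hqt : (D.T a).trace ∈ 𝔮) (hqπ : C π ∉ 𝔮) :
    ∃ η' : Ideal (MvPowerSeries σ O), η'.IsPrime ∧ IK D k ⊔ Ideal.span {C π} ≤ η' ∧ η' ≤ p ∧
      (top : WithBot ℕ∞) ≤ ringKrullDim (MvPowerSeries σ O ⧸ η') ∧
      (∀ γ, D.Ram η' γ ↔ J γ) ∧ 𝔮 ≤ η' := by
  have hmax : maximalIdeal O = Ideal.span {π} := by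
    rw [← hD.ker]
    exact (eq_maximalIdeal (RingHom.ker_isMaximal_of_surjective ψ hD.surj)).symm
  obtain ⟨hreg, -⟩ := Ch0.reg (σ := σ) hmax
  obtain ⟨ζ, z1, z2, z3, z4, z5⟩ := H.ex J hJ
  have oη := H.typ η hη hηI
  have e : D.Ram η = fun γ => J γ ∨ γ = a := funext fun γ => propext (hηJ γ)
  rw [e] at oη
  have tp : (D.Φ a).trace ∈ p := hηp (oη.1 a (Or.inr rfl)).2.1
  have nz : (D.Φ a).trace ∉ ζ := H.tr ζ z1 z2 z3 z5 a fun ⟨i, j, h⟩ => h (z4.2 a ha i j)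
  have hlt : ζ < p := lt_of_le_of_ne z3 fun h => nz (h ▸ tp)
  have : Nontrivial (MvPowerSeries σ O ⧸ p) := Ideal.Quotient.nontrivial_iff.2 hp.ne_top
  have t1 := (CA.dimGE_succ (k := 0) z1 hlt
    (by exact_mod_cast ringKrullDim_nonneg_of_nontrivial)).trans (H.dim ζ z1 z2 z3)
  have t2 : 0 + 1 ≤ top := by exact_mod_cast t1
  obtain ⟨t, rfl⟩ : ∃ t, top = t + 1 := ⟨top - 1, by omega⟩
  obtain ⟨lam, l1, l2, l3, l4, l5⟩ := P022G.Cat.cat_one z1 hp z3 tp z5
  have lT : ∀ i j, (D.T a - 1) i j ∈ lam := fun i j => l2 (z4.2 a ha i j)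
  have two : ∀ I : Ideal (MvPowerSeries σ O), C π ∈ I → (2 : MvPowerSeries σ O) ∈ I := by
    intro I hI
    have h3 : (2 : O) ∈ Ideal.span {π} := by
      rw [← hD.ker, RingHom.mem_ker, map_ofNat]
      exact CharTwo.two_eq_zero
    obtain ⟨c, hc⟩ := Ideal.mem_span_singleton'.1 h3
    rw [← map_ofNat (C : O →+* MvPowerSeries σ O) 2, ← hc, map_mul]
    exact I.mul_mem_left _ hI
  have lπ : C π ∈ lam := l2 (z2 (Ideal.mem_sup_right (Ideal.mem_span_singleton_self _)))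
  have ol : On D (fun γ => J γ ∨ γ = a) lam := by
    refine ⟨?_, fun γ h i j => l2 (z4.2 γ (fun c => h (Or.inl c)) i j)⟩
    rintro γ (h | rfl)
    · obtain ⟨a1, a2, a3⟩ := z4.1 γ h
      exact ⟨l2 a1, l2 a2, l2 a3⟩
    · have b0 := lT 0 0
      have b1 := lT 0 1
      have b2 := lT 1 0
      have b3 := lT 1 1
      simp only [Matrix.sub_apply, Matrix.one_apply_eq, Matrix.one_apply_ne (by decide : (0 : Fin 2) ≠ 1),
        Matrix.one_apply_ne (by decide : (1 : Fin 2) ≠ 0), sub_zero] at b0 b1 b2 b3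
      refine ⟨?_, l3, ?_⟩
      · convert lam.add_mem (lam.add_mem b0 b3) (two lam lπ) using 1
        rw [Matrix.trace_fin_two]
        ring
      · convert lam.add_mem (lam.add_mem (lam.add_mem (lam.mul_mem_right (D.Φ γ 0 0) b0)
          (lam.mul_mem_right (D.Φ γ 1 0) b1)) (lam.add_mem (lam.mul_mem_right (D.Φ γ 0 1) b2)
          (lam.mul_mem_right (D.Φ γ 1 1) b3))) l3 using 1
        simp only [Matrix.trace_fin_two, Matrix.mul_apply, Fin.sum_univ_two]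
        ring
  have hηl : η ≤ lam := H.dom _ η lam hη l1 hηI (z2.trans l2) hηp l4 oη ol hηd
  obtain ⟨g1, g2⟩ := generic hD hj hm H l1 (z2.trans l2) l4 l5 a lT l3
  have hql : 𝔮 < η := lt_of_le_of_ne hqη fun h =>
    hqπ (h ▸ hηI (Ideal.mem_sup_right (Ideal.mem_span_singleton_self _)))
  have dq := CA.dimGE_succ hq hql hηd
  obtain ⟨μ, m1, m2, m4, m5, m3⟩ : ∃ μ : Ideal (MvPowerSeries σ O), μ.IsPrime ∧ 𝔮 ≤ μ ∧ μ ≤ lam ∧
      ((t + 1 : ℕ) : WithBot ℕ∞) ≤ ringKrullDim (MvPowerSeries σ O ⧸ μ) ∧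
      ((D.T a 0 1 ∈ μ ∧ D.Φ a 0 1 ∉ μ) ∨ (D.T a 1 0 ∈ μ ∧ D.Φ a 1 0 ∉ μ)) := by
    by_cases c : D.Φ a 0 1 ∈ lam
    · have b : D.T a 1 0 ∈ lam := by simpa using lT 1 0
      obtain ⟨μ, m1, m2, m3, m4, m5⟩ := P022G.Cat.cat_one hq l1 (hqη.trans hηl) b dq
      exact ⟨μ, m1, m2, m4, m5, Or.inr ⟨m3, fun h => g2 ⟨c, m4 h⟩⟩⟩
    · have b : D.T a 0 1 ∈ lam := by simpa using lT 0 1
      obtain ⟨μ, m1, m2, m3, m4, m5⟩ := P022G.Cat.cat_one hq l1 (hqη.trans hηl) b dq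
      exact ⟨μ, m1, m2, m4, m5, Or.inl ⟨m3, fun h => c (m4 h)⟩⟩
  have hI : IK D k ≤ μ := hqI.trans m2
  have hT : Tame (D.l a) (D.Φ a) (D.T a) μ := fun i j =>
    hI (Ideal.mem_sup_left (Ideal.mem_sup_left (Ideal.mem_sup_right
      (Ideal.subset_span ⟨(a, i, j), rfl⟩))))
  have hdet : (D.T a).det - 1 ∈ μ := by
    have h := hI (Ideal.mem_sup_left (Ideal.mem_sup_right (Ideal.subset_span ⟨a, rfl⟩)))
    beta_reduce at h
    rwa [hξ, map_one] at h
  obtain ⟨q2, qT⟩ := mat_low hl hT.quot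
    (by rw [tr_quot]; exact Ideal.Quotient.eq_zero_iff_mem.2 (m2 hqt)) (det_quot _ hdet) (by
      simp only [Matrix.map_apply, ne_eq, Ideal.Quotient.eq_zero_iff_mem]
      exact m3)
  have mT : ∀ i j, (D.T a - 1) i j ∈ μ := by
    intro i j
    rw [← Ideal.Quotient.eq_zero_iff_mem]
    have h : ((D.T a - 1).map (Ideal.Quotient.mk μ)) = 0 := by
      rw [← RingHom.mapMatrix_apply, map_sub, map_one, RingHom.mapMatrix_apply, qT, sub_self]
    exact congrFun (congrFun h i) j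
  have mπ : C π ∈ μ := by
    have h3 : (2 : MvPowerSeries σ O) ∈ μ := by
      rw [← Ideal.Quotient.eq_zero_iff_mem, map_ofNat]
      exact q2
    obtain ⟨ϖ, hϖ⟩ := IsDiscreteValuationRing.exists_irreducible O
    obtain ⟨n, u, hu⟩ := IsDiscreteValuationRing.eq_unit_mul_pow_irreducible h2 hϖ
    rw [← map_ofNat (C : O →+* MvPowerSeries σ O) 2, hu, map_mul, map_pow] at h3
    have h4 := m1.mem_of_pow_mem n ((m1.mem_or_mem h3).resolve_left fun h =>
      m1.ne_top (μ.eq_top_of_isUnit_mem h (u.isUnit.map C)))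
    have h5 : π ∈ Ideal.span {ϖ} := by
      rw [← hϖ.maximalIdeal_eq, hmax]
      exact Ideal.mem_span_singleton_self _
    obtain ⟨c, hc⟩ := Ideal.mem_span_singleton'.1 h5
    rw [← hc, map_mul]
    exact μ.mul_mem_left _ h4
  have hμ : IK D k ⊔ Ideal.span {C π} ≤ μ :=
    sup_le hI ((Ideal.span_singleton_le_iff_mem _).2 mπ)
  refine ⟨μ, m1, hμ, m4.trans l4, m5, fun γ => ?_, m2⟩
  by_cases c : γ = a
  · subst c
    exact ⟨fun ⟨i, j, h⟩ => absurd (mT i j) h, fun h => absurd h ha⟩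
  · constructor
    · intro h
      by_contra hn
      exact g1 γ c (fun i j => l2 (z4.2 γ hn i j)) (m4 ((H.typ μ m1 hμ).1 γ h).2.1)
    · intro h
      by_contra hn
      exact g1 γ c (fun i j => m4 ((H.typ μ m1 hμ).2 γ hn i j)) (l2 (z4.1 γ h).2.1)

end

end Vale.Agent.P022G.Rel
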