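import Vale.Agent.P022G.Rel.Defs
import Vale.Agent.P022D.Rl.Loc

/-!
# P022G: a bound for the dimension of a prime by the tangent space, block by block
-/

set_option linter.all false

open MvPowerSeries

noncomputable section

namespace Vale.Agent.P022G.Rel

open Vale.Agent.P022D Vale.Agent.P022D.Rl Vale.Agent.P022D.Pdeg

section

variable {F σ β Γ κ : Type} {τ ι : β → Type} [Field F] [Fintype σ] {K : Type} [Field K]

theorem dv_sub' (φ : MvPowerSeries σ F →+* K) (a b : MvPowerSeries σ F) (v : σ → K) :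
    dv φ (a - b) v = dv φ a v - dv φ b v := by
  have h := dv_add φ (a - b) b v
  rw [sub_add_cancel] at h
  rw [h, add_sub_cancel_right]

/-- the tangent vectors are determined on the block `γ` by `r` coordinates -/
def Rk (D : Dat F σ β Γ τ ι) (φ : MvPowerSeries σ F →+* K) (γ : Γ) (r : ℕ) : Prop :=
  ∃ s : Finset (Fin 8), s.card ≤ r ∧ ∀ v ∈ Tan φ, (∀ i ∈ s, v (D.x γ i) = 0) →
    ∀ i, v (D.x γ i) = 0

theorem pdb [Fintype β] [Fintype Γ] [Fintype κ] [DecidableEq κ] [∀ b, Fintype (τ b)]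
    [∀ b, Fintype (ι b)] (D : Dat F σ β Γ τ ι) (hb : ∀ b, CA.BlkPt (D.f b))
    (k : κ → MvPowerSeries σ F) (j : κ → σ) (hj : ∀ a, j a ∉ Set.range D.e)
    (P : Ideal (MvPowerSeries σ F)) [P.IsPrime] (hf : ∀ p, CA.eqs D.eg D.f p ∈ P)
    (hk : ∀ a, k a ∈ P) (hm : mn k j ∉ P) [Algebra (MvPowerSeries σ F ⧸ P) K]
    [IsFractionRing (MvPowerSeries σ F ⧸ P) K] (r : Γ → ℕ)
    (hr : ∀ γ, Rk D (CA.gn P K) γ (r γ)) :
    ∃ d : ℕ, ringKrullDim (MvPowerSeries σ F ⧸ P) ≤ d ∧
      d + (Fintype.card (Σ b, ι b) + Fintype.card κ + 8 * Fintype.card Γ) ≤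
        Fintype.card σ + ∑ γ, r γ := by
  classical
  set φ := CA.gn P K with hφ
  have hker := CA.gn_ker P K
  choose s hs1 hs2 using hr
  have hjinj : Function.Injective j := by
    intro a b hab
    by_contra hne
    refine hm ?_
    rw [mn, Matrix.det_zero_of_column_eq hne (fun c => by simp [hab])]
    exact P.zero_mem
  let R : Type := {x : σ // x ∉ Set.range D.e ∧ x ∉ Set.range j}
  let V := Tan φ
  let L1 : V →ₗ[K] (∀ b, V.map (LinearMap.funLeft K K (CA.emb D.eg b))) :=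
    LinearMap.pi fun b => (LinearMap.funLeft K K (CA.emb D.eg b)).submoduleMap V
  let L2 : V →ₗ[K] ((Σ γ, s γ) → K) :=
    (LinearMap.funLeft K K fun p : Σ γ, s γ => D.x p.1 p.2.1).domRestrict V
  let L3 : V →ₗ[K] (R → K) := (LinearMap.funLeft K K (Subtype.val : R → σ)).domRestrict V
  have hL : Function.Injective (L1.prod (L2.prod L3)) := by
    rw [← LinearMap.ker_eq_bot, LinearMap.ker_eq_bot']
    intro v hv
    have h1 : L1 v = 0 := congrArg Prod.fst hv
    have h2 : L2 v = 0 := congrArg (fun x => x.2.1) hv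
    have h3 : L3 v = 0 := congrArg (fun x => x.2.2) hv
    have g1 : ∀ x, x ∉ Set.range j → v.1 x = 0 := by
      intro x hx
      by_cases he : x ∈ Set.range D.e
      · obtain ⟨⟨b, t⟩ | ⟨γ, i⟩, rfl⟩ := he
        · exact congrFun (congrArg Subtype.val (congrFun h1 b)) t
        · exact hs2 γ v.1 v.2 (fun i hi => congrFun h2 ⟨γ, i, hi⟩) i
      · exact congrFun h3 ⟨x, he, hx⟩
    have g2 : (Matrix.of fun a b => φ (pderiv F (j b) (k a))).mulVec (fun b => v.1 (j b)) = 0 := by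
      funext a
      have h4 := v.2 (k a) ((hker _).1 (hk a))
      rw [dv_apply, ← Finset.sum_subset (Finset.subset_univ (Finset.univ.image j))
        (fun x _ hx => by rw [g1 x (by simpa using hx), zero_mul]),
        Finset.sum_image (fun a _ b _ h => hjinj h)] at h4
      rw [Pi.zero_apply, ← h4]
      simp only [Matrix.mulVec, dotProduct, Matrix.of_apply, mul_comm]
    have g3 : (Matrix.of fun a b => φ (pderiv F (j b) (k a))).det ≠ 0 := by
      intro h
      refine hm ((hker _).2 ?_)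
      rw [mn, RingHom.map_det]
      exact h
    have g4 := Matrix.eq_zero_of_mulVec_eq_zero g3 g2
    refine Subtype.ext (funext fun x => ?_)
    by_cases hx : x ∈ Set.range j
    · obtain ⟨a, rfl⟩ := hx
      exact congrFun g4 a
    · exact g1 x hx
  have h1 := LinearMap.finrank_le_finrank_of_injective hL
  rw [Module.finrank_prod, Module.finrank_prod, Module.finrank_pi_fintype, Module.finrank_pi,
    Module.finrank_pi] at h1
  have h2 : ∀ b, Module.finrank K (V.map (LinearMap.funLeft K K (CA.emb D.eg b))) +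
      Fintype.card (ι b) ≤ Fintype.card (τ b) := by
    intro b
    rcases CA.blk_at D.eg D.f b (hb b) P hf K with h | ⟨t, ht, h⟩
    · refine finrank_block_jac φ _ (CA.emb D.eg b).injective (fun i => CA.eqs D.eg D.f ⟨b, i⟩)
        (fun i => (hker _).1 (hf _)) (fun i x hx => ?_) h
      rw [CA.eqs, CA.pderiv_rename_out _ hx, map_zero]
    · have h3 := finrank_block_le φ (CA.gn_frac P K) (CA.emb D.eg b) t h
      have h4 : Module.finrank K (V.map (LinearMap.funLeft K K (CA.emb D.eg b))) ≤ t.card := h3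
      omega
  have h3 := Finset.sum_le_sum fun b (_ : b ∈ Finset.univ) => h2 b
  rw [Finset.sum_add_distrib] at h3
  have c1 : Fintype.card (Σ b, τ b) = ∑ b, Fintype.card (τ b) := Fintype.card_sigma
  have c2 : Fintype.card (Σ b, ι b) = ∑ b, Fintype.card (ι b) := Fintype.card_sigma
  have h4 : Fintype.card (Σ γ, s γ) ≤ ∑ γ, r γ := by
    rw [Fintype.card_sigma]
    exact Finset.sum_le_sum fun γ _ => by rw [Fintype.card_coe]; exact hs1 γ
  have h5 : Fintype.card ((((Σ b, τ b) ⊕ (Γ × Fin 8)) ⊕ κ) ⊕ R) ≤ Fintype.card σ := by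
    refine Fintype.card_le_of_injective (Sum.elim (Sum.elim D.e j) Subtype.val) ?_
    refine Function.Injective.sumElim (Function.Injective.sumElim D.e.injective hjinj
      fun a b h => hj b ⟨a, h⟩) Subtype.val_injective ?_
    rintro (a | a) x h
    · exact x.2.1 ⟨a, h⟩
    · exact x.2.2 ⟨a, h⟩
  simp only [Fintype.card_sum, Fintype.card_prod, Fintype.card_fin] at h5
  refine ⟨Module.finrank K V, dim_le_finrank φ P hker, ?_⟩
  omega

variable (D : Dat F σ β Γ τ ι) (φ : MvPowerSeries σ F →+* K) (γ : Γ)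

theorem tanU (h : ∀ i j, φ ((D.T γ - 1) i j) = 0) {v : σ → K} (hv : v ∈ Tan φ) :
    v (D.x γ 4) = 0 ∧ v (D.x γ 5) = 0 ∧ v (D.x γ 6) = 0 ∧ v (D.x γ 7) = 0 := by
  have a0 := hv _ (h 0 0)
  have a1 := hv _ (h 0 1)
  have a2 := hv _ (h 1 0)
  have a3 := hv _ (h 1 1)
  simp [Dat.T, mT, dv_add, dv_X, dv_C] at a0 a1 a2 a3
  exact ⟨a0, a1, a2, a3⟩

theorem tanP (h : φ (D.Φ γ).trace = 0) {v : σ → K} (hv : v ∈ Tan φ) :
    v (D.x γ 0) + v (D.x γ 3) = 0 := by
  have a0 := hv _ h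
  simpa [Dat.Φ, mP, dv_add, dv_X, dv_C] using a0

theorem rkU4 (h : ∀ i j, φ ((D.T γ - 1) i j) = 0) : Rk D φ γ 4 := by
  refine ⟨{0, 1, 2, 3}, by decide, fun v hv h0 i => ?_⟩
  obtain ⟨a4, a5, a6, a7⟩ := tanU D φ γ h hv
  have b0 := h0 0 (by decide)
  have b1 := h0 1 (by decide)
  have b2 := h0 2 (by decide)
  have b3 := h0 3 (by decide)
  fin_cases i <;> assumption

theorem rkU3 (h : ∀ i j, φ ((D.T γ - 1) i j) = 0) (ht : φ (D.Φ γ).trace = 0) : Rk D φ γ 3 := by
  refine ⟨{0, 1, 2}, by decide, fun v hv h0 i => ?_⟩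
  obtain ⟨a4, a5, a6, a7⟩ := tanU D φ γ h hv
  have b0 := h0 0 (by decide)
  have b1 := h0 1 (by decide)
  have b2 := h0 2 (by decide)
  have b3 := tanP D φ γ ht hv
  rw [b0, zero_add] at b3
  fin_cases i <;> assumption

theorem rkU1 (h : ∀ i j, φ ((D.T γ - 1) i j) = 0) (ht : φ (D.Φ γ).trace = 0)
    (h1 : φ (D.Φ γ 0 1) = 0) (h2 : φ (D.Φ γ 1 0) = 0) : Rk D φ γ 1 := by
  refine ⟨{0}, by decide, fun v hv h0 i => ?_⟩
  obtain ⟨a4, a5, a6, a7⟩ := tanU D φ γ h hv
  have b0 := h0 0 (by decide)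
  have b1 := hv _ h1
  have b2 := hv _ h2
  simp [Dat.Φ, mP, dv_add, dv_X, dv_C] at b1 b2
  have b3 := tanP D φ γ ht hv
  rw [b0, zero_add] at b3
  fin_cases i <;> assumption

theorem rkN4 (h1 : φ (D.T γ).trace = 0) (h2 : φ (D.Φ γ).trace = 0)
    (h3 : φ (D.T γ * D.Φ γ).trace = 0) (h4 : φ ((D.T γ).det - 1) = 0) : Rk D φ γ 4 := by
  classical
  have e1 : ∀ v ∈ Tan φ, v (D.x γ 4) + v (D.x γ 7) = 0 := fun v hv => by
    simpa [Dat.T, mT, dv_add, dv_X, dv_one] using hv _ h1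
  have e3 : ∀ v ∈ Tan φ, v (D.x γ 0) = 0 → v (D.x γ 3) = 0 → v (D.x γ 4) = 0 → v (D.x γ 7) = 0 →
      φ (D.T γ 0 1) * v (D.x γ 2) + φ (D.Φ γ 1 0) * v (D.x γ 5) +
        (φ (D.T γ 1 0) * v (D.x γ 1) + φ (D.Φ γ 0 1) * v (D.x γ 6)) = 0 := by
    intro v hv c0 c3 c4 c7
    have a := hv _ h3
    rw [Matrix.trace_fin_two, Matrix.mul_apply, Matrix.mul_apply, Fin.sum_univ_two,
      Fin.sum_univ_two] at a
    simp only [dv_add, dv_mul] at a
    simp only [Dat.T, Dat.Φ, mT, mP, Matrix.of_apply, Matrix.cons_val', Matrix.cons_val_zero,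
      Matrix.cons_val_one, Matrix.cons_val_fin_one, dv_add, dv_X, dv_C, dv_one, c0, c3, c4, c7,
      zero_add, mul_zero, add_zero] at a ⊢
    linear_combination a
  have e4 : ∀ v ∈ Tan φ, v (D.x γ 4) = 0 → v (D.x γ 7) = 0 →
      φ (D.T γ 0 1) * v (D.x γ 6) + φ (D.T γ 1 0) * v (D.x γ 5) = 0 := by
    intro v hv c4 c7
    have a := hv _ h4
    rw [Matrix.det_fin_two] at a
    simp only [dv_sub', dv_mul, dv_one] at a
    simp only [Dat.T, mT, Matrix.of_apply, Matrix.cons_val', Matrix.cons_val_zero,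
      Matrix.cons_val_one, Matrix.cons_val_fin_one, dv_add, dv_X, dv_C, dv_one, c4, c7,
      zero_add, mul_zero, add_zero] at a ⊢
    linear_combination -a
  by_cases c6 : φ (D.T γ 1 0) = 0
  · refine ⟨{0, 1, 4, if φ (D.T γ 0 1) = 0 then 2 else 5}, Finset.card_le_four,
      fun v hv h0 i => ?_⟩
    have b0 := h0 0 (by simp)
    have b1 := h0 1 (by simp)
    have b4 := h0 4 (by simp)
    have b3 := tanP D φ γ h2 hv
    rw [b0, zero_add] at b3
    have b7 := e1 v hv
    rw [b4, zero_add] at b7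
    have b6 : v (D.x γ 6) = 0 := by
      simpa [Dat.T, mT, dv_X] using hv _ c6
    have b25 : v (D.x γ 2) = 0 ∧ v (D.x γ 5) = 0 := by
      by_cases c5 : φ (D.T γ 0 1) = 0
      · refine ⟨h0 2 (by simp [c5]), ?_⟩
        simpa [Dat.T, mT, dv_add, dv_X, dv_C] using hv _ c5
      · have b5 := h0 5 (by simp [c5])
        have a := e3 v hv b0 b3 b4 b7
        rw [b5, b1, b6, mul_zero, mul_zero, mul_zero, add_zero, add_zero, add_zero] at a
        exact ⟨(mul_eq_zero.1 a).resolve_left c5, b5⟩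
    obtain ⟨b2, b5⟩ := b25
    fin_cases i <;> assumption
  · refine ⟨{0, 2, 4, 6}, by decide, fun v hv h0 i => ?_⟩
    have b0 := h0 0 (by decide)
    have b2 := h0 2 (by decide)
    have b4 := h0 4 (by decide)
    have b6 := h0 6 (by decide)
    have b3 := tanP D φ γ h2 hv
    rw [b0, zero_add] at b3
    have b7 := e1 v hv
    rw [b4, zero_add] at b7
    have a5 := e4 v hv b4 b7
    rw [b6, mul_zero, zero_add] at a5
    have b5 := (mul_eq_zero.1 a5).resolve_left c6
    have a1 := e3 v hv b0 b3 b4 b7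
    rw [b2, b5, b6, mul_zero, mul_zero, mul_zero, add_zero, add_zero, zero_add] at a1
    have b1 := (mul_eq_zero.1 a1).resolve_left c6
    fin_cases i <;> assumption

end

end Vale.Agent.P022G.Rel
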