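import Vale.Agent.P022G.Rel.Defs
import Vale.Agent.P022G.Rel.Dom
import Vale.Agent.P022D.CA.PtBlk

/-!
# P022G: the dichotomy for a block triangular system of equations
-/

open IsLocalRing MvPowerSeries

namespace Vale.Agent.P022G.Rel

open Vale.Agent.P022D Vale.Agent.P022D.CA Vale.Agent.P022D.Pdeg

variable {F σ β κ : Type} [Field F] [Fintype σ] [Fintype β] [Fintype κ] [DecidableEq κ]
  {τ ι : β → Type} [∀ b, Fintype (τ b)] [∀ b, Fintype (ι b)]

omit [Fintype σ] in
theorem map_mn {K : Type} [CommRing K] (φ : MvPowerSeries σ F →+* K)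
    (k : κ → MvPowerSeries σ F) (j : κ → σ) :
    φ (mn k j) = (Matrix.of fun a b => φ (pderiv F (j b) (k a))).det := by
  rw [mn, RingHom.map_det]
  rfl

theorem tri_at (e : (Σ b, τ b) ↪ σ) (f : ∀ b, ι b → MvPowerSeries (τ b) F)
    (k : κ → MvPowerSeries σ F) (j : κ → σ) (hj : ∀ a, j a ∉ Set.range e)
    {K : Type} [Field K] (φ : MvPowerSeries σ F →+* K) (P : Ideal (MvPowerSeries σ F))
    (hP : ∀ g, g ∈ P ↔ φ g = 0) (hfr : ∀ y : K, ∃ a b, φ b ≠ 0 ∧ y * φ b = φ a)
    (hf : ∀ p, φ (eqs e f p) = 0) (hk : ∀ a, φ (k a) = 0) (hd : φ (mn k j) ≠ 0)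
    (hb : ∀ b, (∀ l : ι b → K,
      (∀ t, ∑ i, l i * φ (pderiv F (emb e b t) (eqs e f ⟨b, i⟩)) = 0) → ∀ i, l i = 0) ∨
      ∃ s : Finset K, s.card + Fintype.card (ι b) + 2 ≤ Fintype.card (τ b) ∧
        ∀ D : Derivation ℤ K K, (∀ y ∈ s, D y = 0) → ∀ t, D (φ (X (emb e b t))) = 0) :
    ringKrullDim (MvPowerSeries σ F ⧸ P) + (Fintype.card ((Σ b, ι b) ⊕ κ) + 2 : ℕ) ≤
        Nat.card σ ∨
      (ringKrullDim (MvPowerSeries σ F ⧸ P) + (Fintype.card ((Σ b, ι b) ⊕ κ) : ℕ) ≤ Nat.card σ ∧
        ∃ Q : Ideal (MvPowerSeries σ F), Q.IsPrime ∧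
          Ideal.span (Set.range (Sum.elim (eqs e f) k)) ≤ Q ∧ Q ≤ P ∧
          ∃ g, g ∉ P ∧ ∀ y ∈ Q, g * y ∈ Ideal.span (Set.range (Sum.elim (eqs e f) k))) := by
  classical
  let M : Matrix κ κ K := Matrix.of fun a b => φ (pderiv F (j b) (k a))
  have hM : M.det ≠ 0 := by rwa [map_mn] at hd
  have hout : ∀ b i s, s ∉ Set.range (emb e b) → φ (pderiv F s (eqs e f ⟨b, i⟩)) = 0 := by
    intro b i s hs
    rw [eqs, pderiv_rename_out _ hs, map_zero]
  have hjb : ∀ a b, j a ∉ Set.range (emb e b) := by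
    rintro a b ⟨t, ht⟩
    exact hj a ⟨⟨b, t⟩, ht⟩
  have hbb : ∀ b b' t, b' ≠ b → emb e b t ∉ Set.range (emb e b') := by
    rintro b b' t hne ⟨t', ht⟩
    have h1 : (⟨b', t'⟩ : Σ b, τ b) = ⟨b, t⟩ := e.injective ht
    exact hne (congrArg Sigma.fst h1)
  by_cases hall : ∀ b, ∀ l : ι b → K,
      (∀ t, ∑ i, l i * φ (pderiv F (emb e b t) (eqs e f ⟨b, i⟩)) = 0) → ∀ i, l i = 0
  · right
    let q := (Fintype.equivFin ((Σ b, ι b) ⊕ κ)).symm
    have h1 := jac_pt φ P hP (fun i => Sum.elim (eqs e f) k (q i)) (fun i => by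
      cases q i with
      | inl p => exact hf p
      | inr a => exact hk a) (fun l hl i => by
      have h2 : ∀ s, ∑ b, ∑ i, l (q.symm (.inl ⟨b, i⟩)) * φ (pderiv F s (eqs e f ⟨b, i⟩)) +
          ∑ a, l (q.symm (.inr a)) * φ (pderiv F s (k a)) = 0 := by
        intro s
        rw [← hl s, ← q.symm.sum_comp, Fintype.sum_sum_type, Fintype.sum_sigma]
        simp only [Equiv.apply_symm_apply, Sum.elim_inl, Sum.elim_inr]
      have h3 : (fun a => l (q.symm (.inr a))) = 0 := by
        refine Matrix.eq_zero_of_vecMul_eq_zero hM (funext fun c => ?_)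
        have h4 := h2 (j c)
        rw [Finset.sum_eq_zero fun b _ => Finset.sum_eq_zero fun i _ => by
          rw [hout b i _ (hjb c b), mul_zero], zero_add] at h4
        exact h4
      have h5 : ∀ a, l (q.symm (.inr a)) = 0 := fun a => congrFun h3 a
      obtain ⟨x, rfl⟩ := q.symm.surjective i
      cases x with
      | inr a => exact h5 a
      | inl p =>
        obtain ⟨b, i⟩ := p
        refine hall b (fun i => l (q.symm (.inl ⟨b, i⟩))) (fun t => ?_) i
        have h4 := h2 (emb e b t)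
        rw [Finset.sum_eq_zero (s := Finset.univ (α := κ)) fun a _ => by rw [h5 a, zero_mul],
          add_zero, Finset.sum_eq_single b (fun b' _ hne => Finset.sum_eq_zero fun i _ => by
            rw [hout b' i _ (hbb b b' t hne), mul_zero]) (by simp)] at h4
        exact h4)
    have h0 : (Set.range fun i => Sum.elim (eqs e f) k (q i)) = Set.range (Sum.elim (eqs e f) k) :=
      q.surjective.range_comp _
    rwa [h0] at h1
  · left
    obtain ⟨b0, hb0⟩ := not_forall.1 hall
    have hji : Function.Injective j := by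
      intro a b hab
      by_contra hne
      exact hM (Matrix.det_zero_of_column_eq hne fun c => by simp only [M, Matrix.of_apply, hab])
    let r : β → ℕ := fun b =>
      Module.finrank K ((Tan φ).map (LinearMap.funLeft K K (emb e b)))
    have hr : ∀ b, r b + Fintype.card (ι b) + (if b = b0 then 2 else 0) ≤ Fintype.card (τ b) := by
      intro b
      rcases hb b with h | ⟨s, h1, h2⟩
      · have hne : b ≠ b0 := fun e => hb0 (e ▸ h)
        rw [if_neg hne, add_zero]
        exact finrank_block_jac φ _ (emb e b).injective (fun i => eqs e f ⟨b, i⟩)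
          (fun i => hf _) (fun i s hs => hout b i s hs) h
      · have h3 : r b ≤ s.card := finrank_block_le φ hfr _ s h2
        split_ifs <;> omega
    have h5 := Finset.sum_le_sum fun b (_ : b ∈ Finset.univ) => hr b
    have c1 : ∑ b, Fintype.card (ι b) = Fintype.card (Σ b, ι b) := Fintype.card_sigma.symm
    have c2 : ∑ b, Fintype.card (τ b) = Fintype.card (Σ b, τ b) := Fintype.card_sigma.symm
    rw [Finset.sum_add_distrib, Finset.sum_add_distrib, Finset.sum_ite_eq', c1, c2] at h5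
    simp only [Finset.mem_univ, if_true] at h5
    let R := {s : σ // s ∉ Set.range e ∧ s ∉ Set.range j}
    have h6 : Fintype.card (Σ b, τ b) + Fintype.card κ + Fintype.card R ≤ Fintype.card σ := by
      rw [← Fintype.card_sum, ← Fintype.card_sum]
      refine Fintype.card_le_of_injective (Sum.elim (Sum.elim e j) Subtype.val) ?_
      refine Function.Injective.sumElim (Function.Injective.sumElim e.injective hji
        fun a b h => hj b ⟨a, h⟩) Subtype.val_injective ?_
      rintro (a | a) s h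
      · exact s.2.1 ⟨a, h⟩
      · exact s.2.2 ⟨a, h⟩
    let L : Tan φ →ₗ[K] (∀ b, (Tan φ).map (LinearMap.funLeft K K (emb e b))) × (R → K) :=
      LinearMap.prod (LinearMap.pi fun b => (LinearMap.funLeft K K (emb e b)).submoduleMap (Tan φ))
        ((LinearMap.funLeft K K (Subtype.val : R → σ)).domRestrict (Tan φ))
    have hL : Function.Injective L := by
      rw [← LinearMap.ker_eq_bot, LinearMap.ker_eq_bot']
      intro v hv
      have h7 : ∀ s, s ∉ Set.range j → v.1 s = 0 := by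
        intro s hs
        by_cases h : s ∈ Set.range e
        · obtain ⟨⟨b, t⟩, rfl⟩ := h
          exact congrFun (congrArg Subtype.val (congrFun (congrArg Prod.fst hv) b)) t
        · exact congrFun (congrArg Prod.snd hv) ⟨s, h, hs⟩
      have h8 : (fun a => v.1 (j a)) = 0 := by
        refine Matrix.eq_zero_of_mulVec_eq_zero hM (funext fun c => ?_)
        have h1 := v.2 _ (hk c)
        rw [dv_apply, ← Finset.sum_subset (Finset.subset_univ (Finset.univ.image j))
          (fun s _ hs => by rw [h7 s (by simpa using hs), zero_mul]),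
          Finset.sum_image fun a _ b _ hab => hji hab] at h1
        rw [Pi.zero_apply, ← h1]
        exact Finset.sum_congr rfl fun t _ => mul_comm _ _
      refine Subtype.ext (funext fun s => ?_)
      by_cases h : s ∈ Set.range j
      · obtain ⟨a, rfl⟩ := h
        exact congrFun h8 a
      · exact h7 s h
    have h8 := LinearMap.finrank_le_finrank_of_injective hL
    rw [Module.finrank_prod, Module.finrank_pi_fintype, Module.finrank_fintype_fun_eq_card] at h8
    have h9 := dim_le_finrank φ P hP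
    rw [Nat.card_eq_fintype_card, Fintype.card_sum]
    refine le_trans (add_le_add_left h9 _) ?_
    have h10 : Module.finrank K (Tan φ) ≤ ∑ b, r b + Fintype.card R := h8
    exact_mod_cast (by omega : Module.finrank K (Tan φ) +
      (Fintype.card (Σ b, ι b) + Fintype.card κ + 2) ≤ Fintype.card σ)

theorem pt_rel (e : (Σ b, τ b) ↪ σ) (f : ∀ b, ι b → MvPowerSeries (τ b) F)
    (k : κ → MvPowerSeries σ F) (j : κ → σ) (hj : ∀ a, j a ∉ Set.range e)
    (P : Ideal (MvPowerSeries σ F)) [P.IsPrime] (hP : ∀ p, eqs e f p ∈ P) (hk : ∀ a, k a ∈ P)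
    (hd : mn k j ∉ P)
    (h : ∀ b, BlkPt (f b) ∨ ∀ l : ι b → FractionRing (MvPowerSeries σ F ⧸ P),
      (∀ t, ∑ i, l i * Pdeg.gen P (rename (emb e b) (pderiv F t (f b i))) = 0) → ∀ i, l i = 0) :
    ringKrullDim (MvPowerSeries σ F ⧸ P) + (Fintype.card ((Σ b, ι b) ⊕ κ) + 2 : ℕ) ≤
        Nat.card σ ∨
      (ringKrullDim (MvPowerSeries σ F ⧸ P) + (Fintype.card ((Σ b, ι b) ⊕ κ) : ℕ) ≤ Nat.card σ ∧
        ∃ Q : Ideal (MvPowerSeries σ F), Q.IsPrime ∧
          Ideal.span (Set.range (Sum.elim (eqs e f) k)) ≤ Q ∧ Q ≤ P ∧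
          ∃ g, g ∉ P ∧ ∀ y ∈ Q, g * y ∈ Ideal.span (Set.range (Sum.elim (eqs e f) k))) :=
  tri_at e f k j hj (gen P) P (gen_ker P) (gen_frac P) (fun p => (gen_ker P _).1 (hP p))
    (fun a => (gen_ker P _).1 (hk a)) (fun h0 => hd ((gen_ker P _).2 h0)) (fun b => by
      rcases h b with h2 | h2
      · exact blk_at e f b h2 P hP _
      · refine Or.inl fun l hl => h2 l fun t => ?_
        rw [← hl t]
        refine Finset.sum_congr rfl fun i _ => ?_
        congr 1
        exact congrArg (Pdeg.gen P) (pderiv_rename (emb e b) t (f b i)).symm)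

/-- DOM for blocks and further equations, inside `p`. -/
theorem dom_tri (e : (Σ b, τ b) ↪ σ) (f : ∀ b, ι b → MvPowerSeries (τ b) F)
    (hb : ∀ b, BlkPt (f b)) (k : κ → MvPowerSeries σ F) (j : κ → σ)
    (hj : ∀ a, j a ∉ Set.range e) (p : Ideal (MvPowerSeries σ F)) [p.IsPrime]
    (hp : ∀ x, eqs e f x ∈ p) (hk : ∀ a, k a ∈ p) (hd : mn k j ∉ p) :
    ∃ d : ℕ, d + Fintype.card (Σ b, ι b) + Fintype.card κ = Fintype.card σ ∧
      ∃ Q : Ideal (MvPowerSeries σ F), Q.IsPrime ∧ Q ≤ p ∧
        ringKrullDim (MvPowerSeries σ F ⧸ Q) = d ∧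
        ∀ P : Ideal (MvPowerSeries σ F), P.IsPrime → P ≤ p → (∀ x, eqs e f x ∈ P) →
          (∀ a, k a ∈ P) → Q ≤ P := by
  have hA := Vale.Agent.P177.mvPowerSeries_isRegularLocalRing σ F
  obtain ⟨d, h1, Q, h2, -, h4, h5, h6⟩ := dom_rel (Vale.Agent.P177.mvPowerSeries_ringKrullDim σ F)
    (Sum.elim (eqs e f) k) p (by rintro (x | a); exacts [hp x, hk a]) fun P hP hle hm =>
      pt_rel e f k j hj P (fun x => hm (.inl x)) (fun a => hm (.inr a)) (fun h => hd (hle h))
        fun b => Or.inl (hb b)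
  rw [Fintype.card_sum, Nat.card_eq_fintype_card, ← add_assoc] at h1
  exact ⟨d, h1, Q, h2, h4, h5, fun P hP hle x1 x2 =>
    h6 P hP hle (by rintro (x | a); exacts [x1 x, x2 a])⟩

/-- An element transversal to the equations does not vanish on the generic point. -/
theorem ne_zero_of_tan {K : Type} [Field K] (φ : MvPowerSeries σ F →+* K) {ν : Type}
    (E : ν → MvPowerSeries σ F) (k : κ → MvPowerSeries σ F) (j : κ → σ) (hd : φ (mn k j) ≠ 0)
    (hk : ∀ a, φ (k a) = 0) (s : σ)
    (hE : ∀ y, φ (E y) = 0 ∧ φ (pderiv F s (E y)) = 0 ∧ ∀ b, φ (pderiv F (j b) (E y)) = 0)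
    {t g : MvPowerSeries σ F} (h0 : φ (pderiv F s t) ≠ 0) (hj : ∀ b, φ (pderiv F (j b) t) = 0)
    (hg : φ g ≠ 0) (hm : g * t ∈ Ideal.span (Set.range (Sum.elim E k))) : φ t ≠ 0 := by
  classical
  intro ht
  let M : Matrix κ κ K := Matrix.of fun a b => φ (pderiv F (j b) (k a))
  have hM : IsUnit M.det := by
    rw [map_mn] at hd
    exact isUnit_iff_ne_zero.2 hd
  let c : κ → K := M⁻¹.mulVec fun a => -φ (pderiv F s (k a))
  have hc : M.mulVec c = fun a => -φ (pderiv F s (k a)) := by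
    rw [Matrix.mulVec_mulVec, Matrix.mul_nonsing_inv _ hM, Matrix.one_mulVec]
  let v : σ → K := Pi.single s 1 + ∑ b, Pi.single (j b) (c b)
  have h1 : ∀ (y : MvPowerSeries σ F) (i : σ) (x : K),
      dv φ y (Pi.single i x) = x * φ (pderiv F i y) := by
    intro y i x
    rw [dv_apply, Finset.sum_eq_single i (fun b _ hb => by rw [Pi.single_eq_of_ne hb, zero_mul])
      (by simp), Pi.single_eq_same]
  have h2 : ∀ y, dv φ y v = φ (pderiv F s y) + ∑ b, c b * φ (pderiv F (j b) y) := by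
    intro y
    simp only [v, map_add, map_sum, h1, one_mul]
  have h3 : ∀ z ∈ Ideal.span (Set.range (Sum.elim E k)), φ z = 0 ∧ dv φ z v = 0 := by
    intro z hz
    refine Submodule.span_induction ?_ ⟨map_zero _, dv_zero φ v⟩ (fun a b _ _ ha hb => ?_)
      (fun a b _ hb => ?_) hz
    · rintro _ ⟨y | a, rfl⟩
      · refine ⟨(hE y).1, ?_⟩
        rw [h2, Sum.elim_inl, (hE y).2.1, zero_add]
        exact Finset.sum_eq_zero fun b _ => by rw [(hE y).2.2 b, mul_zero]
      · refine ⟨hk a, ?_⟩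
        have h4 : ∑ b, φ (pderiv F (j b) (k a)) * c b = -φ (pderiv F s (k a)) := congrFun hc a
        rw [h2, Sum.elim_inr, Finset.sum_congr rfl fun b _ => mul_comm (c b) _, h4, add_neg_cancel]
    · rw [map_add, dv_add, ha.1, ha.2, hb.1, hb.2, add_zero]
      exact ⟨rfl, rfl⟩
    · rw [smul_eq_mul, map_mul, dv_mul, hb.1, hb.2]
      simp
  have h4 := (h3 _ hm).2
  rw [dv_mul, ht, zero_mul, add_zero, h2,
    Finset.sum_eq_zero fun b _ => by rw [hj b, mul_zero], add_zero] at h4
  exact mul_ne_zero hg h0 h4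

end Vale.Agent.P022G.Rel
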